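import Crest.Agent.N250.FV.Hu4
import Crest.Agent.N250.Cp.Cpt_Mg
import Crest.Agent.N250.T.FsC
import Crest.Agent.N250.T.CMu_Mg
import Crest.Agent.N250.T.CFl
import Crest.Agent.N250.T.SelfSim
import Crest.Agent.N250.MP.Avoid
import Crest.Agent.N250.MP.Chart
import Crest.Agent.N250.Be.Main
import Crest.Agent.N250.Cv.Jet
import Crest.Agent.N250.E.Asm_Mg
import Crest.Agent.N250.GB.All
import Crest.Agent.N250.Tr.Inst
import Crest.Agent.N250.Gr.Sheet_Mg
import Crest.Agent.N250.A.Cost_Mg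
import Crest.Agent.N250.A.Cfg0
import Crest.Agent.N250.A.Stm
import Crest.Agent.N250.T.Gau
import Crest.Agent.N250.Re.Comm
import Crest.Agent.N250.Min.Crv
import Crest.Agent.N250.Min.Stm2
import Crest.Agent.N250.A.CS
import Crest.Agent.N250.A.A1

-- ▼ part N250/T/All
section

/-!
# Row 250 (helper79): the toolbox assembled
-/

set_option autoImplicit false
open Crest.GeometryTopology.MCF

namespace Crest.Agent.N250.TA

theorem fsCont : FsContS := fsContS_of muContS_holds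


theorem convFl : ConvFlS := convFlS_of Cv.convJetS_holds convMuS_holds muFinS_holds

theorem white_of (hS : SheetS) : WhiteS :=
  whiteS_of huiskenS_holds densS_holds MP.avoidS_holds reachPosS_holds hS (Cp.cptS_of hS)
    Cv.convJetS_holds convReachS_holds convFl

theorem lim_of (hS : SheetS) : LimStmt :=
  limStmt_of (Cp.cptS_of hS) huiskenS_holds selfSimS_holds convFl Cv.convJetS_holds
    convReachS_holds

theorem weak_of (hS : SheetS) : WeakStmt :=
  Wk.weakStmt_of (lim_of hS) transS_holds divS_holds huiskenS_holds convFl convMuS_holds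

theorem e_of (hS : SheetS) : EStmt :=
  E.eStmt_of (lim_of hS) huiskenS_holds fsCont Cv.convJetS_holds convFl (white_of hS)
    MP.avoidS_holds bernS_holds reachAS_holds

theorem s0387_of' (hS : SheetS) (hA : AStmt) (hL : LSStmt) (M : ℝ → Set E)
    (T : ℝ) (hT : 0 < T) (hM : IsSmoothMCF M T) (hc : IsCompact (M 0)) (hconn : IsConnected (M 0))
    (x₀ : E) (hx : IsSingularPoint M T x₀) :
    ∃ S : Set E, IsSelfShrinker S ∧ RescalingsConvergeTo M T x₀ S :=
  s0387_of GB.initStmt hA Tr.paraStmt (e_of hS) hL (weak_of hS) Br.outStmt M T hT hM hc hconn x₀ hx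

theorem sheet : SheetS := Gr.sheetS_of reachAS_holds bernS_holds

theorem cpt : CptS := Cp.cptS_of sheet

theorem white : WhiteS := white_of sheet


theorem weak : WeakStmt := weak_of sheet


theorem s0387_of_AL (hA : AStmt) (hL : LSStmt) (M : ℝ → Set E)
    (T : ℝ) (hT : 0 < T) (hM : IsSmoothMCF M T) (hc : IsCompact (M 0)) (hconn : IsConnected (M 0))
    (x₀ : E) (hx : IsSingularPoint M T x₀) :
    ∃ S : Set E, IsSelfShrinker S ∧ RescalingsConvergeTo M T x₀ S :=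
  s0387_of' sheet hA hL M T hT hM hc hconn x₀ hx

end Crest.Agent.N250.TA
end

-- ▼ part N250/A/CostF
section

/-! Row 250, block A (helper37): `CostS`, closed. -/

set_option autoImplicit false
open MeasureTheory Set Filter Topology

namespace Crest.Agent.N250.A

theorem costS_of (hA : A2S) : CostS := by
  intro Λ G
  obtain ⟨C, hC, hB⟩ := Cost.blk hA Λ G
  refine ⟨4 * C, by positivity, fun F a m hF hm σ p hσ hp => ?_⟩
  have h := (hB.cost hC.le hF hm (a₀ := 3 * a / 4) (by linarith [hF.neg]) hσ hp).2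
  have e : ∀ q : ST, gau q.1 (p.2 - q.2 + σ) p.1 * (F.A2 q * (2 * (p.2 - q.2) / q.2 ^ 2)) =
      2 * (gau q.1 (p.2 - q.2 + σ) p.1 * (F.A2 q * ((p.2 - q.2) / q.2 ^ 2))) := fun q => by ring
  simp only [e, integral_const_mul]
  rw [show 4 * C / -p.2 = 2 * (2 * C / -p.2) by ring]
  linarith

theorem costS_holds : CostS := costS_of a2S_holds


end Crest.Agent.N250.A
end

-- ▼ part N250/K/Base
section

/-!
# Row 250, block A (helper25): kernel inequalities

`kp1`–`kp3` pointwise ratios of heat kernels, `k1` the comparison of `pot` at `(y, -R²)` and at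
the origin, `near_le`, monotonicity of `TT`, `WW`, and Chebyshev's inequality `cheb`.
-/

set_option autoImplicit false
open MeasureTheory Set Filter Topology
open scoped ContDiff InnerProductSpace
open Crest.GeometryTopology.MCF

noncomputable section

namespace Crest.Agent.N250.K

open Crest.Agent.N250.A

/-- the loss functional: mass of effective scale above `r`, with weight `r / scale` -/
def WW (ν : Measure ST) (σ r : ℝ) : ℝ :=
  ∫ q in {q : ST | q.2 < 0}, gau q.1 (σ - q.2) 0 * (if r * isc σ q < 1 then r * isc σ q else 0) ∂ν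

/-- mass elements close to the slice `-R²` in time and space -/
def Near (σ L' R : ℝ) : Set ST := {q | q.2 < -R ^ 2 ∧ σ - q.2 < 2 * R ^ 2 ∧ R * isc σ q < L'}

/-- potential at `(y, s)` of the mass in `Q` -/
def VV (ν : Measure ST) (σ : ℝ) (Q : Set ST) (s : ℝ) (y : E) : ℝ :=
  ∫ q in Q, gau q.1 (s - q.2 + σ) y ∂ν

/-- `L'` -/
def LL (L : ℝ) : ℝ := 16 * L + 9

/-- constant of `kp2` -/
def C2 (L : ℝ) : ℝ := 2 + L * Real.exp (L * LL L) * (1 + 2 * LL L)

/-- constant of `kp3` -/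
def C3 (L : ℝ) : ℝ := 16 * Real.pi * LL L * Real.exp (LL L ^ 2 / 2)

lemma LL_ge {L : ℝ} (hL : 0 ≤ L) : 1 ≤ LL L := by unfold LL; linarith
lemma LL_pos {L : ℝ} (hL : 0 ≤ L) : 0 < LL L := by unfold LL; linarith
lemma C2_pos {L : ℝ} (hL : 0 ≤ L) : 0 < C2 L := by
  have := LL_pos hL; unfold C2; positivity
lemma C3_pos {L : ℝ} (hL : 0 ≤ L) : 0 < C3 L := by
  have := LL_pos hL; unfold C3; positivity

lemma gau_nonneg (y : E) {s : ℝ} (hs : 0 ≤ s) (x : E) : 0 ≤ gau y s x := by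
  unfold gau; positivity

lemma gau_le (y : E) {s : ℝ} (hs : 0 < s) (x : E) : gau y s x ≤ (4 * Real.pi * s)⁻¹ := by
  unfold gau
  refine mul_le_of_le_one_right (by positivity) (Real.exp_le_one_iff.2 ?_)
  exact div_nonpos_of_nonpos_of_nonneg (neg_nonpos.2 (sq_nonneg _)) (by positivity)


/-- the ratio of two kernels -/
lemma gau_ratio {a b : ℝ} (ha : 0 < a) (hb : 0 < b) (y z : E) :
    gau z b y = gau z a 0 * (a / b * Real.exp (‖z‖ ^ 2 / (4 * a) - ‖y - z‖ ^ 2 / (4 * b))) := by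
  unfold gau
  rw [zero_sub, norm_neg, show -‖y - z‖ ^ 2 / (4 * b) =
    -‖z‖ ^ 2 / (4 * a) + (‖z‖ ^ 2 / (4 * a) - ‖y - z‖ ^ 2 / (4 * b)) by ring, Real.exp_add]
  field_simp

lemma sqrt_ge {a R : ℝ} (hR : 0 < R) (h : R ^ 2 ≤ a) : R ≤ √a := Real.le_sqrt_of_sq_le h

/-- far mass: the ratio is at most `1 / 2` -/
lemma kp1 {L R b : ℝ} (hL : 0 ≤ L) (hR : 0 < R) (hb : 0 < b) {y z : E} (hy : ‖y‖ ≤ L * R)
    (h : LL L ≤ R * ((√(b + R ^ 2) + ‖z‖) / (b + R ^ 2))) :
    gau z b y ≤ gau z (b + R ^ 2) 0 / 2 := by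
  set a := b + R ^ 2 with ha_def
  have ha : 0 < a := by positivity
  set u := ‖z‖ with hu
  have hu0 : 0 ≤ u := norm_nonneg _
  have hs : R ≤ √a := sqrt_ge hR (by linarith)
  have hsa : √a * √a = a := Real.mul_self_sqrt ha.le
  have h1 : R * √a ≤ a := by nlinarith [Real.sqrt_nonneg a]
  set w := R * u / a with hw
  have hw1 : 16 * L + 8 ≤ w := by
    have : R * ((√a + u) / a) = R * √a / a + w := by rw [hw]; field_simp
    have h2 : R * √a / a ≤ 1 := (div_le_one ha).2 h1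
    unfold LL at h; linarith
  have hwa : w * a = R * u := by rw [hw]; field_simp
  set x := a / b with hx
  have hx1 : 1 ≤ x := by rw [hx, le_div_iff₀ hb]; nlinarith [sq_nonneg R]
  have huL : 2 * (L * R) ≤ u := by
    have h3 : (16 * L + 8) * R ^ 2 ≤ w * a := by
      apply mul_le_mul hw1 (by linarith) (by positivity) (by linarith)
    have : R * (2 * (L * R)) ≤ R * u := by nlinarith [sq_nonneg R]
    exact le_of_mul_le_mul_left this hR
  have hyz : u - L * R ≤ ‖y - z‖ := by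
    have := norm_sub_norm_le z y
    rw [norm_sub_rev] at this; linarith
  have hLR : 0 ≤ L * R := by positivity
  have hsq : (u - L * R) ^ 2 ≤ ‖y - z‖ ^ 2 := by
    apply pow_le_pow_left₀ (by linarith) hyz
  have hexp : u ^ 2 / (4 * a) - ‖y - z‖ ^ 2 / (4 * b) ≤ -(4 * x) := by
    have e1 : ‖y - z‖ ^ 2 / (4 * b) ≥ (u - L * R) ^ 2 / (4 * b) := by gcongr
    have e2 : (u - L * R) ^ 2 / (4 * b) =
        (u - L * R) ^ 2 / (4 * a) + (u - L * R) ^ 2 * R ^ 2 / (4 * a * b) := by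
      rw [ha_def]; field_simp
    have e3 : (u - L * R) ^ 2 * R ^ 2 / (4 * a * b) ≥ w ^ 2 * x / 16 := by
      have : w ^ 2 * x / 16 = (u / 2) ^ 2 * R ^ 2 / (4 * a * b) := by
        rw [hw, hx]; field_simp; ring
      rw [this]
      have : (u / 2) ^ 2 ≤ (u - L * R) ^ 2 := pow_le_pow_left₀ (by positivity) (by linarith) 2
      gcongr
    have e4 : u ^ 2 / (4 * a) - (u - L * R) ^ 2 / (4 * a) ≤ L * w / 2 := by
      rw [← sub_div, div_le_iff₀ (by positivity)]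
      nlinarith [sq_nonneg (L * R)]
    have hw0 : 0 ≤ w := by linarith
    have e5 : L * w + 4 * x ≤ w ^ 2 * x / 16 := by
      have f1 : (16 * L + 8) * (w * x) ≤ w * (w * x) := by
        apply mul_le_mul_of_nonneg_right hw1; positivity
      have f2 : L * w ≤ L * (w * x) := by
        apply mul_le_mul_of_nonneg_left _ hL; nlinarith
      have f3 : 8 * x ≤ w * x := by apply mul_le_mul_of_nonneg_right (by linarith); linarith
      nlinarith
    have : 0 ≤ L * w := by positivity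
    linarith
  rw [gau_ratio ha hb y z]
  have h2 : x * Real.exp (u ^ 2 / (4 * a) - ‖y - z‖ ^ 2 / (4 * b)) ≤ 1 / 2 := by
    have f1 := Real.exp_le_exp.2 hexp
    have f2 : Real.exp (-(4 * x)) * (4 * x + 1) ≤ 1 := by
      have := Real.add_one_le_exp (4 * x)
      calc _ ≤ Real.exp (-(4 * x)) * Real.exp (4 * x) := by gcongr
        _ = 1 := by rw [← Real.exp_add]; simp
    have f3 := Real.exp_pos (-(4 * x))
    nlinarith
  have := gau_nonneg z ha.le 0
  nlinarith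

/-- old mass: the ratio is at most `1 + C R / scale` -/
lemma kp2 {L R b : ℝ} (hL : 0 ≤ L) (hR : 0 < R) (hb : R ^ 2 ≤ b) {y z : E} (hy : ‖y‖ ≤ L * R)
    (h : R * ((√(b + R ^ 2) + ‖z‖) / (b + R ^ 2)) ≤ LL L) :
    gau z b y ≤ gau z (b + R ^ 2) 0 *
      (1 + C2 L * (R * ((√(b + R ^ 2) + ‖z‖) / (b + R ^ 2)))) := by
  have hb0 : 0 < b := lt_of_lt_of_le (by positivity) hb
  set a := b + R ^ 2 with ha_def
  have ha : 0 < a := by positivity
  set u := ‖z‖ with hu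
  have hu0 : 0 ≤ u := norm_nonneg _
  have hs : R ≤ √a := sqrt_ge hR (by linarith)
  set q := R * ((√a + u) / a) with hq
  have hqa : q * a = R * √a + R * u := by rw [hq]; field_simp
  have hq0 : 0 ≤ q := by positivity
  have h1 : a / b ≤ 1 + 2 * q := by
    rw [div_le_iff₀ hb0]
    have f1 : R * R ≤ R * √a := by gcongr
    have f2 : R ^ 2 ≤ q * a := by nlinarith [mul_nonneg hR.le hu0]
    have f3 : q * a ≤ q * (2 * b) := by apply mul_le_mul_of_nonneg_left _ hq0; linarith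
    nlinarith
  have hyz : u ^ 2 - 2 * (L * R) * u ≤ ‖y - z‖ ^ 2 := by
    have f1 : |‖z‖ - ‖y‖| ≤ ‖z - y‖ := abs_norm_sub_norm_le z y
    have f2 : (u - ‖y‖) ^ 2 ≤ ‖y - z‖ ^ 2 := by
      rw [norm_sub_rev y z, ← sq_abs]; exact pow_le_pow_left₀ (abs_nonneg _) f1 2
    nlinarith [norm_nonneg y, sq_nonneg ‖y‖]
  have hexp : u ^ 2 / (4 * a) - ‖y - z‖ ^ 2 / (4 * b) ≤ L * q := by
    have e1 : u ^ 2 / (4 * a) ≤ u ^ 2 / (4 * b) := by gcongr; nlinarith [sq_nonneg R]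
    have e2 : u ^ 2 / (4 * b) - ‖y - z‖ ^ 2 / (4 * b) ≤ L * q := by
      rw [← sub_div, div_le_iff₀ (by positivity)]
      have f1 : R * u ≤ q * a := by nlinarith [mul_nonneg hR.le (Real.sqrt_nonneg a)]
      have f3 : q * a ≤ q * (2 * b) := by apply mul_le_mul_of_nonneg_left _ hq0; linarith
      have f4 : L * (R * u) ≤ L * (q * (2 * b)) := mul_le_mul_of_nonneg_left (f1.trans f3) hL
      nlinarith
    linarith
  have h2 : Real.exp (L * q) ≤ 1 + L * q * Real.exp (L * LL L) := by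
    have f1 := Real.add_one_le_exp (-(L * q))
    have f2 : Real.exp (-(L * q)) * Real.exp (L * q) = 1 := by rw [← Real.exp_add]; simp
    have f3 : Real.exp (L * q) ≤ Real.exp (L * LL L) :=
      Real.exp_le_exp.2 (mul_le_mul_of_nonneg_left h hL)
    have f4 := Real.exp_pos (L * q)
    have f5 : 0 ≤ L * q := by positivity
    nlinarith [mul_le_mul_of_nonneg_left f3 f5]
  rw [gau_ratio ha hb0 y z]
  apply mul_le_mul_of_nonneg_left _ (gau_nonneg z ha.le 0)
  have f5 : 0 ≤ L * Real.exp (L * LL L) := by positivity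
  calc a / b * Real.exp (u ^ 2 / (4 * a) - ‖y - z‖ ^ 2 / (4 * b))
      ≤ (1 + 2 * q) * (1 + L * q * Real.exp (L * LL L)) := by
        apply mul_le_mul h1 ((Real.exp_le_exp.2 hexp).trans h2) (Real.exp_pos _).le (by positivity)
    _ ≤ 1 + C2 L * q := by
        unfold C2
        have : L * Real.exp (L * LL L) * q * q ≤ L * Real.exp (L * LL L) * q * LL L := by
          apply mul_le_mul_of_nonneg_left h; positivity
        nlinarith

/-- near mass is seen by the kernel at the origin -/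
lemma kp3 {L R a : ℝ} (hL : 0 ≤ L) (hR : 0 < R) (ha : 0 < a) (ha2 : a ≤ 2 * R ^ 2) {z : E}
    (h : R * ((√a + ‖z‖) / a) ≤ LL L) :
    1 ≤ C3 L * R ^ 2 * (gau z a 0 * (R / LL L * ((√a + ‖z‖) / a))) ∧ ‖z‖ ≤ 2 * LL L * R := by
  have hL' := LL_pos hL
  set u := ‖z‖ with hu
  have hu0 : 0 ≤ u := norm_nonneg _
  have hsa : √a * √a = a := Real.mul_self_sqrt ha.le
  have hs0 : 0 < √a := Real.sqrt_pos.2 ha
  set q := R * ((√a + u) / a) with hq
  have hqa : q * a = R * √a + R * u := by rw [hq]; field_simp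
  have h1 : R * u ≤ LL L * a := by
    have := mul_le_mul_of_nonneg_right h ha.le
    nlinarith [mul_pos hR hs0]
  have h1' : u ≤ 2 * LL L * R := by
    have : R * u ≤ R * (2 * LL L * R) := by nlinarith
    exact le_of_mul_le_mul_left this hR
  refine ⟨?_, h1'⟩
  have h2 : u ^ 2 / (4 * a) ≤ LL L ^ 2 / 2 := by
    rw [div_le_iff₀ (by positivity)]
    have f1 : R * u * u ≤ LL L * a * (2 * LL L * R) := by
      apply mul_le_mul h1 h1' hu0 (by positivity)
    have : R * u ^ 2 ≤ R * (LL L ^ 2 / 2 * (4 * a)) := by nlinarith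
    exact le_of_mul_le_mul_left this hR
  have h3 : 1 / 2 ≤ q := by
    have f1 : √a ≤ 2 * R := by
      apply Real.sqrt_le_iff.2 ⟨by positivity, by nlinarith [sq_nonneg R]⟩
    have f2 : 1 / 2 * a ≤ q * a := by nlinarith [mul_nonneg hR.le hu0]
    exact le_of_mul_le_mul_right f2 ha
  have h4 : (8 * Real.pi * R ^ 2)⁻¹ * Real.exp (-(LL L ^ 2 / 2)) ≤ gau z a 0 := by
    unfold gau
    rw [zero_sub, norm_neg]
    apply mul_le_mul _ (Real.exp_le_exp.2 (by rw [neg_div]; linarith)) (Real.exp_pos _).le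
      (by positivity)
    apply inv_anti₀ (by positivity)
    nlinarith [Real.pi_pos]
  have h5 : R / LL L * ((√a + u) / a) = q / LL L := by rw [hq]; ring
  rw [h5]
  calc (1 : ℝ) = C3 L * R ^ 2 * ((8 * Real.pi * R ^ 2)⁻¹ * Real.exp (-(LL L ^ 2 / 2)) *
        (1 / 2 / LL L)) := by
        unfold C3; rw [Real.exp_neg]; field_simp; ring
    _ ≤ _ := by
        have := C3_pos hL
        gcongr
        exact gau_nonneg z ha.le 0

end Crest.Agent.N250.K

end
end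

-- ▼ part N250/K/Int
section

/-!
# Row 250, block A (helper25): integrated kernel inequalities
-/

set_option autoImplicit false
open MeasureTheory Set Filter Topology
open scoped ContDiff InnerProductSpace
open Crest.GeometryTopology.MCF

noncomputable section

namespace Crest.Agent.N250.K

open Crest.Agent.N250.A

lemma meas_gau (σ s : ℝ) (y : E) : Measurable fun q : ST => gau q.1 (s - q.2 + σ) y := by
  unfold gau; fun_prop

lemma meas_gau0 (σ : ℝ) : Measurable fun q : ST => gau q.1 (σ - q.2) 0 := by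
  unfold gau; fun_prop

lemma meas_isc (σ : ℝ) : Measurable (isc σ) := by
  unfold isc; fun_prop

lemma meas_lt (s : ℝ) : MeasurableSet {q : ST | q.2 < s} :=
  measurableSet_lt measurable_snd measurable_const

lemma meas_near (σ L' R : ℝ) : MeasurableSet (Near σ L' R) := by
  have h1 : MeasurableSet {q : ST | σ - q.2 < 2 * R ^ 2} :=
    measurableSet_lt (by fun_prop) measurable_const
  have h2 : MeasurableSet {q : ST | R * isc σ q < L'} :=
    measurableSet_lt ((meas_isc σ).const_mul R) measurable_const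
  exact (meas_lt _).inter (h1.inter h2)

lemma isc_nonneg {σ : ℝ} {q : ST} (h : 0 ≤ σ - q.2) : 0 ≤ isc σ q := by
  unfold isc; positivity

/-- bounded measurable functions are integrable -/
lemma intOn {ν : Measure ST} [IsFiniteMeasure ν] {S : Set ST} (hS : MeasurableSet S) {f : ST → ℝ}
    (hf : Measurable f) {c : ℝ} (h : ∀ q ∈ S, |f q| ≤ c) : IntegrableOn f S ν :=
  Measure.integrableOn_of_bounded (M := c) (measure_ne_top _ _) hf.aestronglyMeasurable
    ((ae_restrict_iff' hS).2 (Eventually.of_forall h))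

section
variable {ν : Measure ST} [IsFiniteMeasure ν] {σ : ℝ}

lemma gau_bd (hσ : 0 < σ) {s : ℝ} (y : E) {q : ST} (hq : q.2 < s) :
    0 ≤ gau q.1 (s - q.2 + σ) y ∧ gau q.1 (s - q.2 + σ) y ≤ (4 * Real.pi * σ)⁻¹ := by
  refine ⟨gau_nonneg _ (by linarith) _, (gau_le _ (by linarith) _).trans ?_⟩
  apply inv_anti₀ (by positivity)
  nlinarith [Real.pi_pos]

lemma int_gauQ (hσ : 0 < σ) {Q : Set ST} (hQ : MeasurableSet Q) {s : ℝ} (hs : ∀ q ∈ Q, q.2 < s)
    (y : E) : IntegrableOn (fun q : ST => gau q.1 (s - q.2 + σ) y) Q ν :=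
  intOn hQ (meas_gau σ s y) (c := (4 * Real.pi * σ)⁻¹) fun q hq => by
    obtain ⟨h1, h2⟩ := gau_bd hσ y (hs q hq)
    rwa [abs_of_nonneg h1]

/-- the kernel at the origin times a weight in `[0, c]` -/
lemma int_w (hσ : 0 < σ) {w : ST → ℝ} (hw : Measurable w) {c : ℝ}
    (h : ∀ q : ST, q.2 < 0 → |w q| ≤ c) :
    IntegrableOn (fun q : ST => gau q.1 (σ - q.2) 0 * w q) {q : ST | q.2 < 0} ν :=
  intOn (meas_lt 0) ((meas_gau0 σ).mul hw) (c := (4 * Real.pi * σ)⁻¹ * c) fun q hq => by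
    obtain ⟨h1, h2⟩ := gau_bd hσ 0 (s := 0) hq
    rw [show (0 : ℝ) - q.2 + σ = σ - q.2 by ring] at h1 h2
    rw [abs_mul, abs_of_nonneg h1]
    exact mul_le_mul h2 (h q hq) (abs_nonneg _) (by positivity)

/-- weight of `TT` -/
def wT (σ r : ℝ) (q : ST) : ℝ := min 1 (r * isc σ q)
/-- weight of `WW` -/
def wW (σ r : ℝ) (q : ST) : ℝ := if r * isc σ q < 1 then r * isc σ q else 0

lemma meas_wT (σ r : ℝ) : Measurable (wT σ r) :=
  measurable_const.min ((meas_isc σ).const_mul r)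

lemma meas_wW (σ r : ℝ) : Measurable (wW σ r) :=
  Measurable.ite (measurableSet_lt ((meas_isc σ).const_mul r) measurable_const)
    ((meas_isc σ).const_mul r) measurable_const

lemma wT_bd (hσ : 0 < σ) {r : ℝ} (hr : 0 ≤ r) {q : ST} (hq : q.2 < 0) :
    0 ≤ wT σ r q ∧ wT σ r q ≤ 1 :=
  ⟨le_min zero_le_one (mul_nonneg hr (isc_nonneg (by linarith))), min_le_left _ _⟩

lemma wW_bd (hσ : 0 < σ) {r : ℝ} (hr : 0 ≤ r) {q : ST} (hq : q.2 < 0) :
    0 ≤ wW σ r q ∧ wW σ r q ≤ wT σ r q := by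
  have := mul_nonneg hr (isc_nonneg (σ := σ) (q := q) (by linarith))
  unfold wW wT
  split_ifs with h
  · exact ⟨this, le_min h.le le_rfl⟩
  · exact ⟨le_rfl, le_min zero_le_one this⟩

lemma int_wT (hσ : 0 < σ) {r : ℝ} (hr : 0 ≤ r) :
    IntegrableOn (fun q : ST => gau q.1 (σ - q.2) 0 * wT σ r q) {q : ST | q.2 < 0} ν :=
  int_w hσ (meas_wT σ r) (c := 1) fun q hq => by
    obtain ⟨h1, h2⟩ := wT_bd hσ hr hq; rwa [abs_of_nonneg h1]

lemma int_wW (hσ : 0 < σ) {r : ℝ} (hr : 0 ≤ r) :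
    IntegrableOn (fun q : ST => gau q.1 (σ - q.2) 0 * wW σ r q) {q : ST | q.2 < 0} ν :=
  int_w hσ (meas_wW σ r) (c := 1) fun q hq => by
    obtain ⟨h1, h2⟩ := wW_bd hσ hr hq
    rw [abs_of_nonneg h1]; exact h2.trans (wT_bd hσ hr hq).2

lemma int_g0 (hσ : 0 < σ) :
    IntegrableOn (fun q : ST => gau q.1 (σ - q.2) 0) {q : ST | q.2 < 0} ν := by
  simpa using int_w (ν := ν) hσ (w := fun _ => 1) measurable_const (c := 1) (by simp)

omit [IsFiniteMeasure ν] in
lemma TT_eq (r : ℝ) :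
    TT ν σ r = ∫ q in {q : ST | q.2 < 0}, gau q.1 (σ - q.2) 0 * wT σ r q ∂ν := rfl
omit [IsFiniteMeasure ν] in
lemma WW_eq (r : ℝ) :
    WW ν σ r = ∫ q in {q : ST | q.2 < 0}, gau q.1 (σ - q.2) 0 * wW σ r q ∂ν := rfl
omit [IsFiniteMeasure ν] in
lemma pot_zero : pot ν σ 0 = ∫ q in {q : ST | q.2 < 0}, gau q.1 (σ - q.2) 0 ∂ν := by
  unfold pot
  simp only [Prod.snd_zero, Prod.fst_zero, zero_sub]
  congr 1; funext q; rw [show -q.2 + σ = σ - q.2 by ring]

lemma g0_nonneg (hσ : 0 < σ) {q : ST} (hq : q.2 < 0) : 0 ≤ gau q.1 (σ - q.2) 0 :=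
  gau_nonneg _ (by linarith) _

omit [IsFiniteMeasure ν] in
lemma WW_nonneg (hσ : 0 < σ) {r : ℝ} (hr : 0 ≤ r) : 0 ≤ WW ν σ r :=
  setIntegral_nonneg (meas_lt 0) fun _ hq => mul_nonneg (g0_nonneg hσ hq) (wW_bd hσ hr hq).1




lemma TT_le_pot (hσ : 0 < σ) {r : ℝ} (hr : 0 ≤ r) : TT ν σ r ≤ pot ν σ 0 := by
  rw [pot_zero]
  exact setIntegral_mono_on (int_wT hσ hr) (int_g0 hσ) (meas_lt 0) fun _ hq =>
    mul_le_of_le_one_right (g0_nonneg hσ hq) (wT_bd hσ hr hq).2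

lemma TT_mono (hσ : 0 < σ) {r r' : ℝ} (hr : 0 ≤ r) (h : r ≤ r') : TT ν σ r ≤ TT ν σ r' :=
  setIntegral_mono_on (int_wT hσ hr) (int_wT hσ (hr.trans h)) (meas_lt 0) fun _ hq =>
    mul_le_mul_of_nonneg_left (min_le_min le_rfl
      (mul_le_mul_of_nonneg_right h (isc_nonneg (by have : _ < (0 : ℝ) := hq; linarith))))
      (g0_nonneg hσ hq)



lemma WW_le_diff (hσ : 0 < σ) {r : ℝ} (hr : 0 ≤ r) :
    WW ν σ r ≤ 2 * (TT ν σ r - TT ν σ (r / 2)) := by
  rw [WW_eq, TT_eq, TT_eq, ← integral_sub (int_wT hσ hr) (int_wT hσ (by positivity)),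
    ← integral_const_mul]
  refine setIntegral_mono_on (int_wW hσ hr)
    (((int_wT hσ hr).sub (int_wT hσ (by positivity))).const_mul 2) (meas_lt 0) fun q hq => ?_
  rw [← mul_sub, mul_left_comm]
  refine mul_le_mul_of_nonneg_left ?_ (g0_nonneg hσ hq)
  have h0 := mul_nonneg hr (isc_nonneg (σ := σ) (q := q) (by have : q.2 < 0 := hq; linarith))
  have e : r / 2 * isc σ q = r * isc σ q / 2 := by ring
  unfold wW wT
  rw [e]
  split_ifs with h1
  · rw [min_eq_right h1.le, min_eq_right (by linarith)]; linarith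
  · rw [min_eq_left (not_lt.1 h1)]; linarith [min_le_left 1 (r * isc σ q / 2)]

/-- comparison of the potential at `(y, -R²)` and at the origin -/
theorem k1 (hσ : 0 < σ) {L R : ℝ} (hL : 0 ≤ L) (hR : 0 < R) {y : E} (hy : ‖y‖ ≤ L * R) :
    pot ν σ (y, -R ^ 2) ≤ pot ν σ 0 - TT ν σ (R / LL L) / 2 +
      (C2 L * LL L + 1) * WW ν σ (R / LL L) + VV ν σ (Near σ (LL L) R) (-R ^ 2) y := by
  have hL' := LL_pos hL
  have hC := C2_pos hL
  have hr : 0 ≤ R / LL L := by positivity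
  have hR2 : 0 < R ^ 2 := by positivity
  have hsub : ∀ q ∈ Near σ (LL L) R, q.2 < -R ^ 2 := fun q hq => hq.1
  have i1 := int_gauQ (ν := ν) hσ (meas_lt (-R ^ 2)) (fun _ h => h) y
  have i2 := int_gauQ (ν := ν) hσ (meas_near σ (LL L) R) hsub y
  have e1 : pot ν σ (y, -R ^ 2) = ∫ q in {q : ST | q.2 < 0}, ({q : ST | q.2 < -R ^ 2}).indicator
      (fun q : ST => gau q.1 (-R ^ 2 - q.2 + σ) y) q ∂ν := by
    rw [setIntegral_indicator (meas_lt _), inter_eq_right.2]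
    · rfl
    · intro q hq; have : q.2 < -R ^ 2 := hq; show q.2 < 0; linarith
  have e2 : VV ν σ (Near σ (LL L) R) (-R ^ 2) y = ∫ q in {q : ST | q.2 < 0},
      (Near σ (LL L) R).indicator (fun q : ST => gau q.1 (-R ^ 2 - q.2 + σ) y) q ∂ν := by
    rw [setIntegral_indicator (meas_near _ _ _), inter_eq_right.2]
    · rfl
    · intro q hq; have : q.2 < -R ^ 2 := hq.1; show q.2 < 0; linarith
  have j1 := ((integrable_indicator_iff (meas_lt _)).2 i1).integrableOn (s := {q : ST | q.2 < 0})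
  have j2 := ((integrable_indicator_iff (meas_near _ _ _)).2 i2).integrableOn
    (s := {q : ST | q.2 < 0})
  have k0 := int_g0 (ν := ν) hσ
  have kT := (int_wT (ν := ν) hσ hr).div_const 2
  have kW := (int_wW (ν := ν) hσ hr).const_mul (C2 L * LL L + 1)
  have kS : Integrable (fun q : ST => gau q.1 (σ - q.2) 0 -
      gau q.1 (σ - q.2) 0 * wT σ (R / LL L) q / 2) (ν.restrict {q : ST | q.2 < 0}) := k0.sub kT
  have kA : Integrable (fun q : ST => gau q.1 (σ - q.2) 0 -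
      gau q.1 (σ - q.2) 0 * wT σ (R / LL L) q / 2 +
      (C2 L * LL L + 1) * (gau q.1 (σ - q.2) 0 * wW σ (R / LL L) q))
      (ν.restrict {q : ST | q.2 < 0}) := kS.add kW
  rw [e1, e2, pot_zero, TT_eq, WW_eq, ← integral_div, ← integral_const_mul, ← integral_sub k0 kT,
    ← integral_add kS kW, ← integral_add kA j2]
  refine setIntegral_mono_on j1 (kA.add j2) (meas_lt 0) fun q hq => ?_
  have g0 := g0_nonneg hσ hq
  obtain ⟨t0, t1⟩ := wT_bd hσ hr hq
  obtain ⟨w0, w1⟩ := wW_bd hσ hr hq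
  have hW : 0 ≤ (C2 L * LL L + 1) * (gau q.1 (σ - q.2) 0 * wW σ (R / LL L) q) := by positivity
  have hT : gau q.1 (σ - q.2) 0 * wT σ (R / LL L) q ≤ gau q.1 (σ - q.2) 0 :=
    mul_le_of_le_one_right g0 t1
  have hN : 0 ≤ (Near σ (LL L) R).indicator (fun q : ST => gau q.1 (-R ^ 2 - q.2 + σ) y) q :=
    indicator_nonneg (fun q hq => (gau_bd hσ y (hsub q hq)).1) q
  by_cases h1 : q.2 < -R ^ 2
  swap
  · rw [indicator_of_notMem (s := {q : ST | q.2 < -R ^ 2}) h1]; linarith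
  rw [indicator_of_mem (s := {q : ST | q.2 < -R ^ 2}) h1]
  have hb : 0 < -R ^ 2 - q.2 + σ := by linarith
  have ea : -R ^ 2 - q.2 + σ + R ^ 2 = σ - q.2 := by ring
  by_cases h2 : LL L ≤ R * isc σ q
  · have := kp1 hL hR hb hy (z := q.1) (by rw [ea]; exact h2)
    rw [ea] at this; linarith
  by_cases h3 : σ - q.2 < 2 * R ^ 2
  · rw [indicator_of_mem (show q ∈ Near σ (LL L) R from ⟨h1, h3, not_le.1 h2⟩)]; linarith
  have h4 := kp2 hL hR (b := -R ^ 2 - q.2 + σ) (by linarith) hy (z := q.1)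
    (by rw [ea]; exact (not_le.1 h2).le)
  rw [ea] at h4
  have h5 : R / LL L * isc σ q < 1 := by
    rw [div_mul_eq_mul_div, div_lt_one hL']; exact not_le.1 h2
  have h6 : wW σ (R / LL L) q = R / LL L * isc σ q := if_pos h5
  have h7 : wT σ (R / LL L) q = R / LL L * isc σ q := min_eq_right h5.le
  have h8 : R * ((√(σ - q.2) + ‖q.1‖) / (σ - q.2)) = LL L * wW σ (R / LL L) q := by
    rw [h6]; unfold isc; field_simp
  rw [h8] at h4
  rw [h7, ← h6]
  nlinarith [mul_nonneg g0 w0]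


/-- the near mass is controlled by `WW` -/
theorem near_le (hσ : 0 < σ) {L R : ℝ} (hL : 0 ≤ L) (hR : 0 < R) :
    ν.real (Near σ (LL L) R) ≤ C3 L * R ^ 2 * WW ν σ (R / LL L) := by
  have hL' := LL_pos hL
  have hC := C3_pos hL
  have hr : 0 ≤ R / LL L := by positivity
  have hR2 : 0 < R ^ 2 := by positivity
  have hs : Near σ (LL L) R ⊆ {q : ST | q.2 < 0} := fun q hq => by
    have : q.2 < -R ^ 2 := hq.1; show q.2 < 0; linarith
  have i1 := (int_wW (ν := ν) hσ hr).const_mul (C3 L * R ^ 2)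
  rw [WW_eq, ← integral_const_mul]
  calc ν.real (Near σ (LL L) R) = ∫ _ in Near σ (LL L) R, (1 : ℝ) ∂ν := by simp
    _ ≤ ∫ q in Near σ (LL L) R, C3 L * R ^ 2 * (gau q.1 (σ - q.2) 0 * wW σ (R / LL L) q) ∂ν := by
        refine setIntegral_mono_on (by simp) (IntegrableOn.mono_set i1 hs) (meas_near _ _ _)
          fun q hq => ?_
        have h1 : q.2 < -R ^ 2 := hq.1
        have h5 : R / LL L * isc σ q < 1 := by
          rw [div_mul_eq_mul_div, div_lt_one hL']; exact hq.2.2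
        rw [show wW σ (R / LL L) q = R / LL L * isc σ q from if_pos h5]
        exact (kp3 hL hR (by linarith) hq.2.1.le hq.2.2.le).1
    _ ≤ _ := by
        refine setIntegral_mono_set i1 ((ae_restrict_iff' (meas_lt 0)).2
          (Eventually.of_forall fun q hq => ?_)) (Eventually.of_forall hs)
        exact mul_nonneg (by positivity) (mul_nonneg (g0_nonneg hσ hq) (wW_bd hσ hr hq).1)

/-- Chebyshev: the potential of the mass in `Q` is large on a small set only -/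
theorem cheb : ∃ C : ℝ, 0 < C ∧ ∀ (ν : Measure ST) [IsFiniteMeasure ν] (σ s Λ K : ℝ) (Q : Set ST)
    (μ : Measure E), 0 < σ → MeasurableSet Q → (∀ q ∈ Q, q.2 < s) → 0 ≤ Λ → Rt μ Λ → 0 < K →
    μ {y | K ≤ VV ν σ Q s y} ≤ ENNReal.ofReal (C * Λ * ν.real Q / K) := by
  obtain ⟨C, hC, hG⟩ := gauS_holds
  refine ⟨C, hC, fun ν _ σ s Λ K Q μ hσ hQ hs hΛ hμ hK => ?_⟩
  have : SigmaFinite μ := by
    refine Measure.sigmaFinite_of_countable (S := range fun n : ℕ => Metric.ball (0 : E) (n + 1))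
      (countable_range _) ?_ ?_
    · rintro _ ⟨n, rfl⟩
      exact (hμ 0 _ (by positivity)).trans_lt ENNReal.ofReal_lt_top
    · rw [sUnion_range]; exact Metric.iUnion_ball_nat_succ 0
  have hm : Measurable fun p : E × ST => ENNReal.ofReal (gau p.2.1 (s - p.2.2 + σ) p.1) := by
    unfold gau; fun_prop
  set f : E → ENNReal := fun y => ∫⁻ q in Q, ENNReal.ofReal (gau q.1 (s - q.2 + σ) y) ∂ν with hf
  have hfm : Measurable f := hm.lintegral_prod_right'
  have h1 : ∀ y, f y = ENNReal.ofReal (VV ν σ Q s y) := fun y =>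
    (ofReal_integral_eq_lintegral_ofReal (int_gauQ hσ hQ hs y)
      ((ae_restrict_iff' hQ).2 (Eventually.of_forall fun q hq => (gau_bd hσ y (hs q hq)).1))).symm
  have h2 : ∫⁻ y, f y ∂μ ≤ ENNReal.ofReal (C * Λ * ν.real Q) := by
    rw [hf, lintegral_lintegral_swap hm.aemeasurable]
    calc ∫⁻ q in Q, ∫⁻ y, ENNReal.ofReal (gau q.1 (s - q.2 + σ) y) ∂μ ∂ν
        ≤ ∫⁻ _ in Q, ENNReal.ofReal (C * Λ) ∂ν := by
          refine setLIntegral_mono' hQ fun q hq => ?_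
          have hb : 0 < s - q.2 + σ := by linarith [hs q hq]
          obtain ⟨i, l, -⟩ := (hG μ Λ hΛ).1 hμ q.1 _ hb
          rw [← ofReal_integral_eq_lintegral_ofReal i
            (Eventually.of_forall fun x => gau_nonneg _ hb.le x)]
          exact ENNReal.ofReal_le_ofReal l
      _ = _ := by
          rw [setLIntegral_const, ENNReal.ofReal_mul (by positivity : 0 ≤ C * Λ), Measure.real,
            ENNReal.ofReal_toReal (measure_ne_top _ _)]
  have h3 := meas_ge_le_lintegral_div (μ := μ) hfm.aemeasurable (ε := ENNReal.ofReal K)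
    (by simpa using hK) ENNReal.ofReal_ne_top
  calc μ {y | K ≤ VV ν σ Q s y} ≤ μ {y | ENNReal.ofReal K ≤ f y} :=
        measure_mono fun y hy => by rw [Set.mem_ofPred_eq, h1]; exact ENNReal.ofReal_le_ofReal hy
    _ ≤ ENNReal.ofReal (C * Λ * ν.real Q) / ENNReal.ofReal K :=
        h3.trans (ENNReal.div_le_div_right h2 _)
    _ = _ := (ENNReal.ofReal_div_of_pos hK).symm

end

end Crest.Agent.N250.K

end
end

-- ▼ part N250/K/KI
section

/-!
# Row 250, block A (helper25): alternative I of the kernel analysis (`KIS`)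
-/

set_option autoImplicit false
open MeasureTheory Set Filter Topology
open scoped ContDiff InnerProductSpace
open Crest.GeometryTopology.MCF

noncomputable section

namespace Crest.Agent.N250.K

open Crest.Agent.N250.A

/-- geometric growth stops or lasts -/
lemma seq {T : ℕ → ℝ} (hT : Monotone T) {κ Λ : ℝ} (hκ : 1 ≤ κ) (hΛ : 0 ≤ Λ) {J : ℕ}
    (hJ : Λ * (J + 1) ≤ T J) (n : ℕ) :
    (∃ k, J ≤ k ∧ k < J + n ∧ T (k + 1) - T k ≤ T (k + 1) / κ ∧ Λ / κ * (k + 1) ≤ T (k + 1)) ∨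
      Λ * (J + 1) * (1 + 1 / κ) ^ n ≤ T (J + n) := by
  have hκ0 : 0 < κ := by linarith
  induction n with
  | zero => right; simpa using hJ
  | succ n ih =>
    rcases ih with ⟨k, h1, h2, h3⟩ | ih
    · exact Or.inl ⟨k, h1, by omega, h3⟩
    have hm : T (J + n) ≤ T (J + n + 1) := hT (Nat.le_succ _)
    by_cases h : T (J + n + 1) - T (J + n) ≤ T (J + n + 1) / κ
    · refine Or.inl ⟨J + n, by omega, by omega, h, le_trans ?_ (ih.trans hm)⟩
      have b : 1 + (n : ℝ) * (1 / κ) ≤ (1 + 1 / κ) ^ n :=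
        one_add_mul_le_pow (by have : 0 < 1 / κ := by positivity
                               linarith) n
      have b2 : 1 / κ * (((J + n : ℕ) : ℝ) + 1) ≤ (J + 1) * (1 + (n : ℝ) * (1 / κ)) := by
        have f1 : 1 / κ ≤ 1 := by rw [div_le_one hκ0]; exact hκ
        have f2 : (0 : ℝ) ≤ J := Nat.cast_nonneg _
        have f3 : (0 : ℝ) ≤ n := Nat.cast_nonneg _
        have f4 : 0 < 1 / κ := by positivity
        push_cast
        nlinarith [mul_nonneg f2 (mul_nonneg f3 f4.le), mul_le_mul_of_nonneg_left f1 f2]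
      calc Λ / κ * (((J + n : ℕ) : ℝ) + 1) = Λ * (1 / κ * (((J + n : ℕ) : ℝ) + 1)) := by ring
        _ ≤ Λ * ((J + 1) * (1 + 1 / κ) ^ n) := by
            refine mul_le_mul_of_nonneg_left (b2.trans ?_) hΛ
            exact mul_le_mul_of_nonneg_left b (by positivity)
        _ = _ := by ring
    · right
      have h1 : T (J + n) / κ ≤ T (J + n + 1) / κ := by gcongr
      have h2 : T (J + n) * (1 + 1 / κ) ≤ T (J + n + 1) := by
        have : T (J + n) * (1 + 1 / κ) = T (J + n) + T (J + n) / κ := by ring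
        linarith [not_le.1 h]
      calc _ = Λ * (J + 1) * (1 + 1 / κ) ^ n * (1 + 1 / κ) := by ring
        _ ≤ T (J + n) * (1 + 1 / κ) := by gcongr
        _ ≤ _ := h2

/-- the choice of the scale -/
lemma pick {T : ℕ → ℝ} (hT : Monotone T) {κ D : ℝ} (hκ : 1 ≤ κ) (hD : 4 ≤ D) {J k₁ c₀ N : ℕ}
    (hJ : 4 * D * κ * (k₁ + 1) * (J + 1) ≤ T J) (hN0 : 1 + c₀ + 2 * k₁ < N + 1)
    (hJN : 3 * J < c₀ + (N + 1)) (hTN : T N ≤ 2 * (c₀ + (N + 1)) + 1) :
    ∃ k, k₁ ≤ k ∧ k < N ∧ T (k + 1) - T k ≤ T (k + 1) / κ ∧ 4 * D * (k + 1) ≤ T (k + 1) := by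
  have hκ0 : 0 < κ := by linarith
  obtain ⟨Λ₁, hΛ₁⟩ : ∃ Λ₁, Λ₁ = 4 * D * κ := ⟨_, rfl⟩
  have hΛ₁0 : 0 < Λ₁ := by rw [hΛ₁]; positivity
  rw [← hΛ₁] at hJ
  have hJ' : Λ₁ * (((J + k₁ : ℕ) : ℝ) + 1) ≤ T (J + k₁) := by
    refine le_trans ?_ (hJ.trans (hT (Nat.le_add_right J k₁)))
    rw [mul_assoc]
    refine mul_le_mul_of_nonneg_left ?_ hΛ₁0.le
    have f2 : (0 : ℝ) ≤ J := Nat.cast_nonneg _
    have f3 : (0 : ℝ) ≤ k₁ := Nat.cast_nonneg _
    push_cast; nlinarith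
  obtain ⟨n, hn⟩ : ∃ n, N = J + k₁ + n := ⟨N - (J + k₁), by omega⟩
  rcases seq hT hκ hΛ₁0.le hJ' n with ⟨k, hk1, hk2, hk3, hk4⟩ | h
  · refine ⟨k, by omega, by omega, hk3, ?_⟩
    rwa [show Λ₁ / κ = 4 * D by rw [hΛ₁]; field_simp] at hk4
  exfalso
  have b : 1 + (n : ℝ) * (1 / κ) ≤ (1 + 1 / κ) ^ n :=
    one_add_mul_le_pow (by have : 0 < 1 / κ := by positivity
                           linarith) n
  have h2 : 16 * (n : ℝ) ≤ Λ₁ * (((J + k₁ : ℕ) : ℝ) + 1) * (1 + 1 / κ) ^ n := by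
    have f1 : Λ₁ * ((n : ℝ) * (1 / κ)) = 4 * D * n := by rw [hΛ₁]; field_simp
    have f3 : (0 : ℝ) ≤ n := Nat.cast_nonneg _
    have f4 : (1 : ℝ) ≤ ((J + k₁ : ℕ) : ℝ) + 1 := by
      have : (0 : ℝ) ≤ ((J + k₁ : ℕ) : ℝ) := Nat.cast_nonneg _
      linarith
    calc 16 * (n : ℝ) ≤ Λ₁ * ((n : ℝ) * (1 / κ)) := by rw [f1]; nlinarith
      _ ≤ Λ₁ * (1 * (1 + 1 / κ) ^ n) := by
          refine mul_le_mul_of_nonneg_left ?_ hΛ₁0.le; linarith
      _ ≤ Λ₁ * ((((J + k₁ : ℕ) : ℝ) + 1) * (1 + 1 / κ) ^ n) := by gcongr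
      _ = _ := by ring
  have h3 : 2 * (c₀ + (N + 1)) + 1 < 16 * n := by omega
  have h4 : (2 * (c₀ + (N + 1)) + 1 : ℝ) < 16 * n := by exact_mod_cast h3
  rw [← hn] at h
  linarith

/-- the arithmetic of the range of scales -/
lemma range {x R : ℝ} (hx : 1 ≤ x) {c₀ k₁ J : ℕ} (hc₀ : x < 2 ^ c₀)
    (hR : x * 2 ^ (1 + c₀ + 2 * k₁) ≤ R) (hJ1 : (8 : ℝ) ^ J ≤ R) :
    ∃ N : ℕ, 2 ^ N * x ≤ R ∧ 1 + c₀ + 2 * k₁ < N + 1 ∧ 3 * J < c₀ + (N + 1) ∧
      Real.log R ≤ c₀ + (N + 1) := by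
  have hx' : (2 : ℝ) ^ (1 + c₀ + 2 * k₁) ≤ R / x := by
    rw [le_div_iff₀ (by positivity)]; linarith
  obtain ⟨N, hN1, hN2⟩ := exists_nat_pow_near ((one_le_pow₀ one_le_two).trans hx')
    (one_lt_two (α := ℝ))
  have hRlt : R < 2 ^ (c₀ + (N + 1)) := by
    rw [div_lt_iff₀ (by positivity)] at hN2
    rw [pow_add]
    have : (0 : ℝ) < 2 ^ (N + 1) := by positivity
    nlinarith
  have hR0 : 0 < R := lt_of_lt_of_le (by positivity) hR
  refine ⟨N, (le_div_iff₀ (by positivity)).1 hN1,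
    (pow_lt_pow_iff_right₀ (one_lt_two (α := ℝ))).1 (hx'.trans_lt hN2), ?_, ?_⟩
  · apply (pow_lt_pow_iff_right₀ (one_lt_two (α := ℝ))).1
    rw [pow_mul]; norm_num; exact hJ1.trans_lt hRlt
  · have h1 := Real.log_le_log hR0 hRlt.le
    rw [Real.log_pow] at h1
    have h2 : Real.log 2 ≤ 1 := by have := Real.log_two_lt_d9; linarith
    have h3 : (0 : ℝ) ≤ ((c₀ + (N + 1) : ℕ) : ℝ) := Nat.cast_nonneg _
    have := mul_le_mul_of_nonneg_left h2 h3
    push_cast at h1 this; linarith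

lemma log_le {Λ' L' X : ℝ} (h1 : 0 < Λ') (h2 : 0 < L') {k : ℕ}
    (h : (4 + |Real.log (Λ' * L')|) * (k + 1) - 3 ≤ X) : Λ' * (L' * 2 ^ (k + 1)) ≤ Real.exp X := by
  rw [← Real.exp_log (show 0 < Λ' * (L' * 2 ^ (k + 1)) by positivity)]
  apply Real.exp_le_exp.2
  have e1 : Real.log (Λ' * (L' * 2 ^ (k + 1))) = Real.log (Λ' * L') + (k + 1) * Real.log 2 := by
    rw [← mul_assoc, Real.log_mul (by positivity) (by positivity), Real.log_pow]
    push_cast; ring
  have h2 : Real.log 2 ≤ 1 := by have := Real.log_two_lt_d9; linarith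
  have f0 : (0 : ℝ) ≤ k := Nat.cast_nonneg _
  have f1 : ((k : ℝ) + 1) * Real.log 2 ≤ k + 1 := mul_le_of_le_one_right (by positivity) h2
  have f2 := le_abs_self (Real.log (Λ' * L'))
  have f3 := mul_nonneg (abs_nonneg (Real.log (Λ' * L'))) f0
  rw [e1]; nlinarith

theorem kIS_holds : KIS := by
  intro Λ L e Λ' r₁ hΛ hL he hΛ'
  have hL0 : 0 ≤ L := by linarith
  have hL' := LL_ge hL0
  have hC2 := C2_pos hL0
  have hC3 := C3_pos hL0
  obtain ⟨Cc, hCc, hch⟩ := cheb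
  obtain ⟨k₁, hk₁⟩ := pow_unbounded_of_one_lt r₁ (one_lt_two (α := ℝ))
  obtain ⟨c₀, hc₀⟩ := pow_unbounded_of_one_lt (L * LL L) (one_lt_two (α := ℝ))
  obtain ⟨A, hA⟩ : ∃ A, A = Cc * Λ * C3 L / e := ⟨_, rfl⟩
  have hA0 : 0 ≤ A := by rw [hA]; positivity
  obtain ⟨K', hK'⟩ : ∃ K', K' = C2 L * LL L + 1 + A := ⟨_, rfl⟩
  have hK1 : 1 ≤ K' := by
    have : 0 ≤ C2 L * LL L := by positivity
    linarith
  obtain ⟨D, hD⟩ : ∃ D, D = 4 + |Real.log (Λ' * LL L)| := ⟨_, rfl⟩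
  have hD4 : 4 ≤ D := by have := abs_nonneg (Real.log (Λ' * LL L)); linarith
  have hLL : 1 ≤ L * LL L := by nlinarith
  refine ⟨4 * D * (8 * K') * (k₁ + 1), L * LL L * 2 ^ (1 + c₀ + 2 * k₁), by positivity, ?_⟩
  intro ν _ σ R hσ _ hR hpot ⟨J, hJ1, hJ2⟩
  obtain ⟨N, hN1, hN0, hJN, hlog⟩ := range hLL hc₀ hR hJ1
  have hTm : Monotone fun k : ℕ => TT ν σ (2 ^ k) := fun a b h =>
    TT_mono hσ (by positivity) (pow_le_pow_right₀ one_le_two h)
  obtain ⟨k, hk1, hk2, hk3, hk4⟩ := pick hTm (κ := 8 * K') (by linarith) hD4 hJ2 hN0 hJN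
    ((TT_le_pot hσ (by positivity)).trans (by linarith))
  obtain ⟨r, hr⟩ : ∃ r, r = LL L * 2 ^ (k + 1) := ⟨_, rfl⟩
  have hp : (1 : ℝ) ≤ 2 ^ (k + 1) := one_le_pow₀ one_le_two
  have hr0 : 0 < r := by rw [hr]; positivity
  have hrL : r / LL L = 2 ^ (k + 1) := by rw [hr]; field_simp
  have hr2 : 2 ^ (k + 1) ≤ r := by rw [hr]; exact le_mul_of_one_le_left (by positivity) hL'
  refine ⟨r, hp.trans hr2, ?_, ?_, fun μ hμ => ?_⟩
  · exact hk₁.le.trans ((pow_le_pow_right₀ one_le_two (by omega)).trans hr2)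
  · have : (2 : ℝ) ^ (k + 1) ≤ 2 ^ N := pow_le_pow_right₀ one_le_two (by omega)
    calc L * r = 2 ^ (k + 1) * (L * LL L) := by rw [hr]; ring
      _ ≤ 2 ^ N * (L * LL L) := by gcongr
      _ ≤ R := hN1
  have hW0 : 0 ≤ WW ν σ (2 ^ (k + 1)) := WW_nonneg hσ (by positivity)
  have hW1 := WW_le_diff (ν := ν) hσ (r := 2 ^ (k + 1)) (by positivity)
  rw [show (2 : ℝ) ^ (k + 1) / 2 = 2 ^ k by rw [pow_succ]; ring] at hW1
  have hnear := near_le (ν := ν) hσ hL0 hr0
  have hk := fun y hy => k1 (ν := ν) hσ hL0 hr0 (y := y) hy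
  rw [hrL] at hnear hk
  generalize WW ν σ (2 ^ (k + 1)) = W at hW0 hW1 hnear hk
  generalize TT ν σ (2 ^ (k + 1)) = T₁ at hW1 hk hk3 hk4
  generalize TT ν σ (2 ^ k) = T₀ at hW1 hk3
  have hW2 : K' * W ≤ T₁ / 4 := by
    calc K' * W ≤ K' * (2 * (T₁ / (8 * K'))) := by gcongr; linarith
      _ = _ := by field_simp; ring
  have hch' := hch ν σ (-r ^ 2) Λ (A * W + 1) (Near σ (LL L) r) μ hσ (meas_near _ _ _)
    (fun q hq => hq.1) hΛ hμ (by positivity)
  refine le_trans (measure_mono fun y hy => ?_) (hch'.trans (ENNReal.ofReal_le_ofReal ?_))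
  · obtain ⟨hy1, hy2⟩ := hy
    rw [mem_ball_zero_iff] at hy2
    by_contra hV
    have hV' : VV ν σ (Near σ (LL L) r) (-r ^ 2) y < A * W + 1 := not_le.1 hV
    have h1 := hk y hy2.le
    have f4 : K' * W = (C2 L * LL L + 1) * W + A * W := by rw [hK']; ring
    have h4 : Λ' * r ≤ rad ν σ (y, -r ^ 2) := by
      unfold rad
      conv_lhs => rw [hr]
      apply log_le hΛ' (by linarith)
      rw [← hD]; linarith
    exact absurd hy1 (not_lt.2 h4)
  · rw [div_le_iff₀ (by positivity)]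
    have h2 : e * r ^ 2 * (A * W) = Cc * Λ * (C3 L * r ^ 2 * W) := by rw [hA]; field_simp
    have h3 : Cc * Λ * ν.real (Near σ (LL L) r) ≤ Cc * Λ * (C3 L * r ^ 2 * W) := by gcongr
    have h4 : 0 < e * r ^ 2 := by positivity
    rw [mul_add, h2]; linarith

end Crest.Agent.N250.K

end
end

-- ▼ part N250/MP/Two
section

/-!
# Row 250 (helper71): curves in the track and the two-point maximum principle
-/

set_option autoImplicit false
open MeasureTheory Set Filter Topology Function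
open scoped ContDiff InnerProductSpace
open Crest.GeometryTopology.MCF

noncomputable section

namespace Crest.Agent.N250.MP

variable {F : Mv} {p : ST}

/-- a curve in the slice with velocity `P v` and normal acceleration -/
theorem slice_curve (hF : F.Reg) (hp : p ∈ F.M) (v : E) : ∃ γ γ' : ℝ → E, γ 0 = p.1 ∧
    (∀ᶠ s in 𝓝 (0 : ℝ), HasDerivAt γ (γ' s) s ∧ (γ s, p.2) ∈ F.M) ∧ γ' 0 = F.PL p v ∧
    HasDerivAt γ' (-Aq F p v v • F.n p) 0 := by
  obtain ⟨Ψ, U, hU, h0, hs, hx, hM, h1, h2⟩ := chartS_holds F hF p hp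
  have hl : ∀ s : ℝ, HasDerivAt (fun s : ℝ => ((s • v, p.2) : ST)) (v, 0) s := fun s => by
    simpa using ((hasDerivAt_id s).smul_const v).prodMk (hasDerivAt_const s p.2)
  have e0 : (((0 : ℝ) • v, p.2) : ST) = (0, p.2) := by rw [zero_smul]
  have hev : ∀ᶠ s in 𝓝 (0 : ℝ), ((s • v, p.2) : ST) ∈ U :=
    (hl 0).continuousAt.preimage_mem_nhds (by rw [e0]; exact hU.mem_nhds h0)
  refine ⟨fun s => Ψ (s • v, p.2), fun s => fderiv ℝ Ψ (s • v, p.2) (v, 0), by simpa using hx,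
    hev.mono fun s hs' => ⟨?_, hM _ hs'⟩, by simpa using h1 v 0, ?_⟩
  · exact ((hs.contDiffAt (hU.mem_nhds hs')).differentiableAt (by simp)).hasFDerivAt.comp_hasDerivAt
      s (hl s)
  · have hY : HasFDerivAt (fun q => fderiv ℝ Ψ q (v, 0))
        (fderiv ℝ (fun q => fderiv ℝ Ψ q (v, 0)) (0, p.2)) ((0 : ℝ) • v, p.2) := by
      rw [e0]
      exact ((((hs.contDiffAt (hU.mem_nhds h0)).fderiv_right (m := ∞) (by simp)).clm_apply
        contDiffAt_const).differentiableAt (by simp)).hasFDerivAt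
    have := hY.comp_hasDerivAt 0 (hl 0)
    rw [h2 v v] at this
    exact this

/-- a curve following the normal motion to first order -/
theorem time_curve (hF : F.Reg) (hp : p ∈ F.M) : ∃ c : ℝ → E, c p.2 = p.1 ∧
    (∀ᶠ s in 𝓝 p.2, (c s, s) ∈ F.M) ∧ HasDerivAt c (F.V p • F.n p) p.2 := by
  obtain ⟨Ψ, U, hU, h0, hs, hx, hM, h1, -⟩ := chartS_holds F hF p hp
  have hl : HasDerivAt (fun s : ℝ => (((0 : E), s) : ST)) (0, 1) p.2 :=
    (hasDerivAt_const _ (0 : E)).prodMk (hasDerivAt_id _)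
  have hev : ∀ᶠ s in 𝓝 p.2, (((0 : E), s) : ST) ∈ U :=
    hl.continuousAt.preimage_mem_nhds (hU.mem_nhds h0)
  refine ⟨fun s => Ψ (0, s), hx, hev.mono fun s hs' => hM _ hs', ?_⟩
  have := ((hs.contDiffAt (hU.mem_nhds h0)).differentiableAt (by simp)).hasFDerivAt.comp_hasDerivAt
    p.2 hl
  rw [h1, show F.PL p 0 = 0 by simp [Mv.PL], zero_add, one_mul] at this
  exact this

/-- second order condition at a local minimum -/
theorem second_min {f f' : ℝ → ℝ} {c : ℝ} (hm : IsLocalMin f 0)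
    (h1 : ∀ᶠ θ in 𝓝 (0:ℝ), HasDerivAt f (f' θ) θ) (h2 : HasDerivAt f' c 0) : 0 ≤ c := by
  have h0 : HasDerivAt f (f' 0) 0 := h1.self_of_nhds
  have e0 : f' 0 = 0 := hm.hasDerivAt_eq_zero h0
  by_contra hc
  push Not at hc
  have hd : deriv f =ᶠ[𝓝 0] f' := h1.mono fun θ h => h.deriv
  have hdd : deriv (deriv f) 0 = c := by rw [hd.deriv_eq, h2.deriv]
  have hM : IsLocalMax f 0 :=
    isLocalMax_of_deriv_deriv_neg (by rw [hdd]; exact hc) (by rw [h0.deriv, e0]) h0.continuousAt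
  have hcst : f =ᶠ[𝓝 0] fun _ => f 0 := (hm.and hM).mono fun θ h => le_antisymm h.2 h.1
  have : deriv f =ᶠ[𝓝 0] fun _ => (0:ℝ) := by
    filter_upwards [hcst.deriv] with θ h
    simpa using h
  rw [this.deriv_eq] at hdd
  simp at hdd
  linarith

/-- first order condition at a minimum from the left -/
theorem left_min {f : ℝ → ℝ} {c t : ℝ} (hm : ∀ᶠ s in 𝓝 t, s ≤ t → f t ≤ f s)
    (h : HasDerivAt f c t) : c ≤ 0 := by
  have h1 : Tendsto (slope f t) (𝓝[<] t) (𝓝 c) :=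
    (hasDerivAt_iff_tendsto_slope.1 h).mono_left (nhdsWithin_mono _ fun s hs => ne_of_lt hs)
  refine le_of_tendsto h1 ?_
  filter_upwards [nhdsWithin_le_nhds hm, self_mem_nhdsWithin] with s hs hs'
  have hs' : s < t := hs'
  rw [slope_def_field]
  exact div_nonpos_of_nonneg_of_nonpos (sub_nonneg.2 (hs hs'.le)) (sub_nonpos.2 hs'.le)

/-- the reflection exchanging `n` and `-m` -/
def refl2 (n m v : E) : E := v - (⟪v, n + m⟫_ℝ / (1 + ⟪n, m⟫_ℝ)) • (n + m)

section refl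
variable {n m : E} (hn : ⟪n, n⟫_ℝ = 1) (hm : ⟪m, m⟫_ℝ = 1) (hc : 0 ≤ ⟪n, m⟫_ℝ)

theorem refl2_adj (v w : E) : ⟪refl2 n m v, w⟫_ℝ = ⟪v, refl2 n m w⟫_ℝ := by
  simp only [refl2, inner_sub_left, inner_sub_right, real_inner_smul_left, inner_smul_right,
    real_inner_comm (n + m) w]
  ring

include hn hm hc

theorem refl2_iso (v w : E) : ⟪refl2 n m v, refl2 n m w⟫_ℝ = ⟪v, w⟫_ℝ := by
  have h : ⟪n + m, n + m⟫_ℝ = 2 * (1 + ⟪n, m⟫_ℝ) := by
    rw [inner_add_left, inner_add_right, inner_add_right, hn, hm, real_inner_comm n m]; ring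
  have h1 : 1 + ⟪n, m⟫_ℝ ≠ 0 := by linarith
  simp only [refl2, inner_sub_left, inner_sub_right, real_inner_smul_left, inner_smul_right,
    real_inner_comm (n + m) w, h]
  field_simp
  ring

theorem refl2_tr (B : Fin 3 → Fin 3 → ℝ) :
    ∑ a, ∑ i, ∑ j, B i j * (refl2 n m (ee a) i * refl2 n m (ee a) j) = ∑ i, B i i := by
  have h : ∀ i j, ∑ a, refl2 n m (ee a) i * refl2 n m (ee a) j = if i = j then 1 else 0 := by
    intro i j
    have e : ∀ a i, refl2 n m (ee a) i = refl2 n m (ee i) a := fun a i => by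
      rw [← inner_ee, refl2_adj, real_inner_comm, inner_ee]
    simp only [e _ i, e _ j]
    rw [← inner_eq_sum, refl2_iso hn hm hc, inner_ee]
    simp [ee, eq_comm]
  rw [Finset.sum_comm]
  refine Finset.sum_congr rfl fun i _ => ?_
  rw [Finset.sum_comm]
  simp only [← Finset.mul_sum, h, mul_ite, mul_one, mul_zero, Finset.sum_ite_eq, Finset.mem_univ,
    if_true]

theorem refl2_sum : ∑ a, ‖(ee a - ⟪n, ee a⟫_ℝ • n) -
    (refl2 n m (ee a) - ⟪m, refl2 n m (ee a)⟫_ℝ • m)‖ ^ 2 = 2 * (1 - ⟪n, m⟫_ℝ) := by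
  have h1 : 1 + ⟪n, m⟫_ℝ ≠ 0 := by linarith
  have h : ⟪n + m, n + m⟫_ℝ = 2 * (1 + ⟪n, m⟫_ℝ) := by
    rw [inner_add_left, inner_add_right, inner_add_right, hn, hm, real_inner_comm n m]; ring
  have e : ∀ a, (ee a - ⟪n, ee a⟫_ℝ • n) - (refl2 n m (ee a) - ⟪m, refl2 n m (ee a)⟫_ℝ • m) =
      ((m a - ⟪n, m⟫_ℝ * n a) / (1 + ⟪n, m⟫_ℝ)) • (n + m) := fun a => by
    have e1 : ⟪m, refl2 n m (ee a)⟫_ℝ = -n a := by
      rw [refl2, inner_sub_right, inner_smul_right, inner_add_right, inner_add_right, hm,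
        real_inner_comm n m, real_inner_comm n, real_inner_comm m, inner_ee, inner_ee]
      field_simp
      ring
    have e2 : (m a - ⟪n, m⟫_ℝ * n a) / (1 + ⟪n, m⟫_ℝ) = (n a + m a) / (1 + ⟪n, m⟫_ℝ) - n a := by
      field_simp
      ring
    rw [e1, e2, refl2, inner_add_right, real_inner_comm n, real_inner_comm m, inner_ee, inner_ee]
    module
  simp only [e, norm_smul, mul_pow, ← real_inner_self_eq_norm_sq, h, Real.norm_eq_abs, sq_abs,
    div_pow]
  rw [← Finset.sum_mul, ← Finset.sum_div]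
  have e3 : ∑ a, (m a - ⟪n, m⟫_ℝ * n a) ^ 2 = 1 - ⟪n, m⟫_ℝ ^ 2 := by
    have a1 := inner_eq_sum n n
    have a2 := inner_eq_sum m m
    have a3 := inner_eq_sum n m
    rw [hn] at a1; rw [hm] at a2
    simp only [Fin.sum_univ_three] at a1 a2 a3 ⊢
    generalize ⟪n, m⟫_ℝ = c at *
    linear_combination (-1 : ℝ) * a2 + 2 * c * a3 - c ^ 2 * a1
  rw [e3]
  field_simp
  ring

end refl

/-- `‖x' - y'‖² - g (x', s)` on pairs of points of the slices `s ≤ t` is locally minimal at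
`(x, y, t)` -/
def TwoMin (F : Mv) (g : ST → ℝ) (x y : E) (t : ℝ) : Prop :=
  ∀ᶠ z : E × E × ℝ in 𝓝 (x, y, t), (z.1, z.2.2) ∈ F.M → (z.2.1, z.2.2) ∈ F.M → z.2.2 ≤ t →
    ‖x - y‖ ^ 2 - g (x, t) ≤ ‖z.1 - z.2.1‖ ^ 2 - g (z.1, z.2.2)

/-- the same in one slice -/
def TwoMinS (F : Mv) (g : E → ℝ) (x y : E) (t : ℝ) : Prop :=
  ∀ᶠ z : E × E in 𝓝 (x, y), (z.1, t) ∈ F.M → (z.2, t) ∈ F.M →
    ‖x - y‖ ^ 2 - g x ≤ ‖z.1 - z.2‖ ^ 2 - g z.1

theorem TwoMin.slice {g : ST → ℝ} {x y : E} {t : ℝ} (h : TwoMin F g x y t) :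
    TwoMinS F (fun z => g (z, t)) x y t := by
  have : Tendsto (fun z : E × E => (z.1, z.2, t)) (𝓝 (x, y)) (𝓝 (x, y, t)) :=
    (by fun_prop : Continuous fun z : E × E => (z.1, z.2, t)).tendsto (x, y)
  exact (this.eventually h).mono fun z hz h1 h2 => hz h1 h2 le_rfl

variable {x y : E} {t : ℝ}

theorem two_curves {g : E → ℝ} (h : TwoMinS F g x y t) {γ η : ℝ → E} (h1 : γ 0 = x) (h2 : η 0 = y)
    (c1 : ContinuousAt γ 0) (c2 : ContinuousAt η 0) (m1 : ∀ᶠ s in 𝓝 (0 : ℝ), (γ s, t) ∈ F.M)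
    (m2 : ∀ᶠ s in 𝓝 (0 : ℝ), (η s, t) ∈ F.M) :
    IsLocalMin (fun s => ⟪γ s - η s, γ s - η s⟫_ℝ - g (γ s)) 0 := by
  have : Tendsto (fun s => (γ s, η s)) (𝓝 0) (𝓝 (x, y)) := by
    rw [← h1, ← h2]; exact c1.prodMk c2
  filter_upwards [this.eventually h, m1, m2] with s a b c
  simpa only [h1, h2, real_inner_self_eq_norm_sq] using a b c

/-- first order condition at `y` -/
theorem two_normal (hF : F.Reg) {g : E → ℝ} (hx : (x, t) ∈ F.M) (hy : (y, t) ∈ F.M)
    (h : TwoMinS F g x y t) : F.PL (y, t) (x - y) = 0 := by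
  obtain ⟨η, η', e0, ev, e1, -⟩ := slice_curve hF hy (x - y)
  have d := ev.self_of_nhds.1
  have hm := two_curves (γ := fun _ => x) h rfl e0 continuousAt_const d.continuousAt
    (Eventually.of_forall fun _ => hx) (ev.mono fun _ h => h.2)
  have d1 := (hasDerivAt_const (0 : ℝ) x).sub d
  have := hm.hasDerivAt_eq_zero ((d1.inner ℝ d1).sub_const _)
  simp only [Pi.sub_apply, e0, e1, zero_sub, inner_neg_left, inner_neg_right] at this
  rw [real_inner_comm] at this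
  have h3 : ⟪F.PL (y, t) (x - y), x - y⟫_ℝ = 0 := by linarith
  have h4 : ⟪F.PL (y, t) (x - y), F.PL (y, t) (x - y)⟫_ℝ = 0 := by
    conv_lhs => rw [show ∀ w, ⟪w, F.PL (y, t) (x - y)⟫_ℝ =
      ⟪w, x - y - ⟪F.n (y, t), x - y⟫_ℝ • F.n (y, t)⟫_ℝ from fun _ => rfl]
    rw [inner_sub_right, h3, inner_smul_right, real_inner_comm (F.n (y, t)) (F.PL _ _),
      inner_PL hF hy]; ring
  exact inner_self_eq_zero.1 h4

/-- first order condition at `x` -/
theorem two_grad (hF : F.Reg) {g : E → ℝ} (hx : (x, t) ∈ F.M) (hy : (y, t) ∈ F.M)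
    (hg : DifferentiableAt ℝ g x) (h : TwoMinS F g x y t) (v : E) :
    fderiv ℝ g x (F.PL (x, t) v) = 2 * ⟪x - y, F.PL (x, t) v⟫_ℝ := by
  obtain ⟨γ, γ', e0, ev, e1, -⟩ := slice_curve hF hx v
  have d := ev.self_of_nhds.1
  have hm := two_curves (η := fun _ => y) h e0 rfl d.continuousAt continuousAt_const
    (ev.mono fun _ h => h.2) (Eventually.of_forall fun _ => hy)
  have d1 := d.sub (hasDerivAt_const (0 : ℝ) y)
  have d2 : HasDerivAt (fun s => g (γ s)) (fderiv ℝ g x (γ' 0)) 0 :=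
    hg.hasFDerivAt.comp_hasDerivAt_of_eq 0 d e0.symm
  have := hm.hasDerivAt_eq_zero ((d1.inner ℝ d1).sub d2)
  simp only [Pi.sub_apply, e0, e1, sub_zero] at this
  rw [real_inner_comm (x - y)] at this
  linarith

/-- second order condition in the slice -/
theorem two_second (hF : F.Reg) {g : E → ℝ} (hx : (x, t) ∈ F.M) (hy : (y, t) ∈ F.M)
    (hg : ContDiffAt ℝ 2 g x) (h : TwoMinS F g x y t) :
    ∑ a, fderiv ℝ (fderiv ℝ g) x (F.PL (x, t) (ee a)) (F.PL (x, t) (ee a))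
      - F.H (x, t) * fderiv ℝ g x (F.n (x, t)) ≤
      4 * (1 - |⟪F.n (x, t), F.n (y, t)⟫_ℝ|) - 2 * F.H (x, t) * ⟪x - y, F.n (x, t)⟫_ℝ
        + 2 * F.H (y, t) * ⟪x - y, F.n (y, t)⟫_ℝ := by
  obtain ⟨m, hm, hc, habs, hP⟩ : ∃ m : E, ⟪m, m⟫_ℝ = 1 ∧ 0 ≤ ⟪F.n (x, t), m⟫_ℝ ∧
      |⟪F.n (x, t), F.n (y, t)⟫_ℝ| = ⟪F.n (x, t), m⟫_ℝ ∧
      ∀ v, F.PL (y, t) v = v - ⟪m, v⟫_ℝ • m := by
    rcases le_total 0 ⟪F.n (x, t), F.n (y, t)⟫_ℝ with h0 | h0
    · exact ⟨_, hF.inner_n hy, h0, abs_of_nonneg h0, fun _ => rfl⟩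
    · refine ⟨-F.n (y, t), by simpa using hF.inner_n hy, by rw [inner_neg_right]; linarith,
        by rw [inner_neg_right, abs_of_nonpos h0], fun v => ?_⟩
      rw [inner_neg_left, neg_smul_neg]; rfl
  have hn := hF.inner_n hx
  set n := F.n (x, t) with hnd
  have hg1 : ∀ᶠ z in 𝓝 x, DifferentiableAt ℝ g z :=
    (hg.eventually (by simp)).mono fun z hz => hz.differentiableAt (by simp)
  have hg2 : HasFDerivAt (fderiv ℝ g) (fderiv ℝ (fderiv ℝ g) x) x :=
    ((hg.fderiv_right (m := 1) (by norm_num)).differentiableAt (by simp)).hasFDerivAt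
  have key : ∀ a, fderiv ℝ (fderiv ℝ g) x (F.PL (x, t) (ee a)) (F.PL (x, t) (ee a))
      - Aq F (x, t) (ee a) (ee a) * fderiv ℝ g x n ≤
      2 * ‖F.PL (x, t) (ee a) - F.PL (y, t) (refl2 n m (ee a))‖ ^ 2
        - 2 * Aq F (x, t) (ee a) (ee a) * ⟪x - y, n⟫_ℝ
        + 2 * Aq F (y, t) (refl2 n m (ee a)) (refl2 n m (ee a)) * ⟪x - y, F.n (y, t)⟫_ℝ := by
    intro a
    obtain ⟨γ, γ', e0, ev, e1, e2⟩ := slice_curve hF hx (ee a)
    obtain ⟨η, η', f0, fv, f1, f2⟩ := slice_curve hF hy (refl2 n m (ee a))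
    have d := ev.self_of_nhds.1
    have d' := fv.self_of_nhds.1
    have hmin := two_curves h e0 f0 d.continuousAt d'.continuousAt (ev.mono fun _ h => h.2)
      (fv.mono fun _ h => h.2)
    have ht : Tendsto γ (𝓝 0) (𝓝 x) := by rw [show x = γ 0 from e0.symm]; exact d.continuousAt
    have D1 : ∀ᶠ s in 𝓝 (0 : ℝ), HasDerivAt (fun s => ⟪γ s - η s, γ s - η s⟫_ℝ - g (γ s))
        (⟪γ s - η s, γ' s - η' s⟫_ℝ + ⟪γ' s - η' s, γ s - η s⟫_ℝ - fderiv ℝ g (γ s) (γ' s)) s := by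
      filter_upwards [ev, fv, ht.eventually hg1] with s a b c
      exact ((a.1.sub b.1).inner ℝ (a.1.sub b.1)).sub (c.hasFDerivAt.comp_hasDerivAt s a.1)
    have D2 := ((((d.sub d').inner ℝ (e2.sub f2)).add ((e2.sub f2).inner ℝ (d.sub d'))).sub
      ((hg2.comp_hasDerivAt_of_eq 0 d e0.symm).clm_apply e2))
    have := second_min hmin D1 D2
    simp only [Pi.sub_apply, comp_apply, e0, e1, f0, f1, real_inner_self_eq_norm_sq, map_smul,
      smul_eq_mul, ← hnd] at this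
    rw [real_inner_comm (x - y), inner_sub_right, inner_smul_right, inner_smul_right] at this
    linarith
  have s1 : ∑ a, Aq F (x, t) (ee a) (ee a) = F.H (x, t) := by
    simp [Aq, Mv.H, ee, Finset.sum_apply]
  have s2 : ∑ a, Aq F (y, t) (refl2 n m (ee a)) (refl2 n m (ee a)) = F.H (y, t) := by
    simp only [Aq, Mv.H, Finset.sum_apply]
    exact refl2_tr hn hm hc _
  have s3 : ∑ a, ‖F.PL (x, t) (ee a) - F.PL (y, t) (refl2 n m (ee a))‖ ^ 2 = 2 * (1 - ⟪n, m⟫_ℝ) := by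
    simp only [hP]
    exact refl2_sum hn hm hc
  have := Finset.sum_le_sum fun a (_ : a ∈ Finset.univ) => key a
  simp only [Finset.sum_sub_distrib, Finset.sum_add_distrib, ← Finset.sum_mul, ← Finset.mul_sum,
    s1, s2, s3] at this
  rw [habs]
  linarith

/-- first order condition in time -/
theorem two_time (hF : F.Reg) {g : ST → ℝ} (hx : (x, t) ∈ F.M) (hy : (y, t) ∈ F.M)
    (hg : DifferentiableAt ℝ g (x, t)) (h : TwoMin F g x y t) :
    2 * F.V (x, t) * ⟪x - y, F.n (x, t)⟫_ℝ - 2 * F.V (y, t) * ⟪x - y, F.n (y, t)⟫_ℝ ≤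
      fderiv ℝ g (x, t) (F.V (x, t) • F.n (x, t), 1) := by
  obtain ⟨γ, e0, ev, e1⟩ := time_curve hF hx
  obtain ⟨η, f0, fv, f1⟩ := time_curve hF hy
  simp only at e0 ev e1 f0 fv f1
  have ht : Tendsto (fun s => (γ s, η s, s)) (𝓝 t) (𝓝 (x, y, t)) := by
    rw [← e0, ← f0]; exact e1.continuousAt.prodMk (f1.continuousAt.prodMk continuousAt_id)
  have hm : ∀ᶠ s in 𝓝 t, s ≤ t → ⟪γ t - η t, γ t - η t⟫_ℝ - g (γ t, t) ≤
      ⟪γ s - η s, γ s - η s⟫_ℝ - g (γ s, s) := by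
    filter_upwards [ht.eventually h, ev, fv] with s a b c hs
    simpa only [e0, f0, real_inner_self_eq_norm_sq] using a b c hs
  have d2 : HasDerivAt (fun s => g (γ s, s)) (fderiv ℝ g (x, t) (F.V (x, t) • F.n (x, t), 1)) t :=
    hg.hasFDerivAt.comp_hasDerivAt_of_eq t (e1.prodMk (hasDerivAt_id t)) (by rw [e0])
  have := left_min hm (((e1.sub f1).inner ℝ (e1.sub f1)).sub d2)
  simp only [Pi.sub_apply, e0, f0] at this
  rw [real_inner_comm (x - y), inner_sub_right, inner_smul_right, inner_smul_right] at this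
  linarith


theorem fd_slice {g : ST → ℝ} (hg : DifferentiableAt ℝ g (x, t)) (v : E) :
    fderiv ℝ (fun z => g (z, t)) x v = fderiv ℝ g (x, t) (v, 0) := by
  have := hg.hasFDerivAt.comp x (hasFDerivAt_prodMk_left (𝕜 := ℝ) x t)
  exact congrArg (fun L : E →L[ℝ] ℝ => L v) this.fderiv

theorem snd_slice {g : ST → ℝ} (hg : ContDiffAt ℝ 2 g (x, t)) (v w : E) :
    fderiv ℝ (fderiv ℝ fun z => g (z, t)) x v w = fderiv ℝ (fderiv ℝ g) (x, t) (v, 0) (w, 0) := by
  have hs : ContDiffAt ℝ 2 (fun z => g (z, t)) x :=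
    hg.comp x (contDiffAt_id.prodMk contDiffAt_const)
  have d1 : HasFDerivAt (fderiv ℝ fun z => g (z, t)) (fderiv ℝ (fderiv ℝ fun z => g (z, t)) x) x :=
    ((hs.fderiv_right (m := 1) (by norm_num)).differentiableAt (by simp)).hasFDerivAt
  have d2 : HasFDerivAt (fderiv ℝ g) (fderiv ℝ (fderiv ℝ g) (x, t)) (x, t) :=
    ((hg.fderiv_right (m := 1) (by norm_num)).differentiableAt (by simp)).hasFDerivAt
  have d3 := (d2.comp x (hasFDerivAt_prodMk_left (𝕜 := ℝ) x t)).clm_apply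
    (hasFDerivAt_const ((w, 0) : ST) x)
  have d4 := d1.clm_apply (hasFDerivAt_const w x)
  have ev : ∀ᶠ z in 𝓝 x, DifferentiableAt ℝ g (z, t) :=
    ((by fun_prop : Continuous fun z : E => ((z, t) : ST)).tendsto x).eventually
      ((hg.eventually (by simp)).mono fun z hz => hz.differentiableAt (by simp))
  have := (d4.congr_of_eventuallyEq (ev.mono fun z hz => (fd_slice hz w).symm)).unique d3
  simpa using congrArg (fun L : E →L[ℝ] ℝ => L v) this


theorem TwoMin.congr {f g : ST → ℝ} (hx : (x, t) ∈ F.M) (h : TwoMin F f x y t)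
    (e : f =ᶠ[𝓝[F.M] (x, t)] g) : TwoMin F g x y t := by
  have : Tendsto (fun z : E × E × ℝ => ((z.1, z.2.2) : ST)) (𝓝 (x, y, t)) (𝓝 (x, t)) :=
    (by fun_prop : Continuous fun z : E × E × ℝ => ((z.1, z.2.2) : ST)).tendsto (x, y, t)
  filter_upwards [h, this.eventually (eventually_nhdsWithin_iff.1 e)] with z a b h1 h2 h3
  rw [← b h1, ← e.eq_of_nhdsWithin hx]
  exact a h1 h2 h3

theorem sum_PL_in (hF : F.Reg) (hp : p ∈ F.M) (v : E) :
    ∑ a, ⟪v, F.PL p (ee a)⟫_ℝ * ⟪v, F.PL p (ee a)⟫_ℝ = ‖v‖ ^ 2 - ⟪v, F.n p⟫_ℝ ^ 2 := by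
  have a1 := inner_eq_sum (F.n p) (F.n p)
  have a2 := inner_eq_sum v v
  have a3 := inner_eq_sum v (F.n p)
  rw [hF.inner_n hp] at a1
  rw [real_inner_self_eq_norm_sq] at a2
  simp only [Mv.PL, inner_sub_right, inner_smul_right, inner_ee, Fin.sum_univ_three] at a1 a2 a3 ⊢
  generalize ⟪v, F.n p⟫_ℝ = c at *
  linear_combination (-1 : ℝ) * a2 + 2 * c * a3 - c ^ 2 * a1

/-- at a normal pair `⟨x - y, n x⟩² = |x - y|² cos²` -/
theorem inner_sq_of_normal (hF : F.Reg) (hy : (y, t) ∈ F.M) (h : F.PL (y, t) (x - y) = 0) (n : E) :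
    ⟪x - y, n⟫_ℝ ^ 2 = ‖x - y‖ ^ 2 * ⟪n, F.n (y, t)⟫_ℝ ^ 2 := by
  have e : x - y = ⟪F.n (y, t), x - y⟫_ℝ • F.n (y, t) := sub_eq_zero.1 h
  generalize ⟪F.n (y, t), x - y⟫_ℝ = c at e
  rw [e, norm_smul, hF.norm_n hy, real_inner_smul_left, mul_one, Real.norm_eq_abs, sq_abs, mul_pow,
    real_inner_comm]

/-- TWO-POINT LEMMA in one slice, for `f` of class `C²` on the track near `(x, t)` -/
theorem two_slice (hF : F.Reg) {f : ST → ℝ} (hx : (x, t) ∈ F.M) (hy : (y, t) ∈ F.M)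
    (hf : ContDiffWithinAt ℝ 2 f F.M (x, t)) (h : TwoMin F f x y t) :
    F.PL (y, t) (x - y) = 0 ∧ (∀ a, F.D a f (x, t) = 2 * ⟪x - y, F.PL (x, t) (ee a)⟫_ℝ) ∧
    F.gam f f (x, t) = 4 * ‖x - y‖ ^ 2 * (1 - ⟪F.n (x, t), F.n (y, t)⟫_ℝ ^ 2) ∧
    F.lap f (x, t) ≤ 4 * (1 - |⟪F.n (x, t), F.n (y, t)⟫_ℝ|) - 2 * F.H (x, t) * ⟪x - y, F.n (x, t)⟫_ℝ
        + 2 * F.H (y, t) * ⟪x - y, F.n (y, t)⟫_ℝ ∧
    2 * F.V (x, t) * ⟪x - y, F.n (x, t)⟫_ℝ - 2 * F.V (y, t) * ⟪x - y, F.n (y, t)⟫_ℝ ≤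
      F.Dt f (x, t) := by
  obtain ⟨g, hg, e⟩ := exists_ext (m := 2) hF hx hf
  have h' := h.congr hx e
  have hd : DifferentiableAt ℝ g (x, t) := hg.differentiableAt (by simp)
  have hs : ContDiffAt ℝ 2 (fun z => g (z, t)) x :=
    hg.comp x (contDiffAt_id.prodMk contDiffAt_const)
  have h0 := two_normal hF hx hy h'.slice
  have h1 : ∀ a, F.D a f (x, t) = 2 * ⟪x - y, F.PL (x, t) (ee a)⟫_ℝ := fun a => by
    rw [D_eq hF hx hd e, ← fd_slice hd, two_grad hF hx hy (hs.differentiableAt (by simp)) h'.slice]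
  refine ⟨h0, h1, ?_, ?_, ?_⟩
  · change (∑ a, F.D a f * F.D a f) (x, t) = _
    simp only [Finset.sum_apply, Pi.mul_apply, h1]
    have := sum_PL_in hF hx (x - y)
    rw [inner_sq_of_normal hF hy h0] at this
    simp only [Fin.sum_univ_three] at this ⊢
    linear_combination 4 * this
  · have := two_second hF hx hy hs h'.slice
    simp only [snd_slice hg, fd_slice hd] at this
    rwa [lap_amb hF hx hg e]
  · rw [Dt_eq hF hx hd e]; exact two_time hF hx hy hd h'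

/-- TWO-POINT LEMMA for the squared distance -/
theorem two_sq (hF : F.IsMCF) {f : ST → ℝ} (hx : (x, t) ∈ F.M) (hy : (y, t) ∈ F.M)
    (hf : ContDiffWithinAt ℝ 2 f F.M (x, t)) (h : TwoMin F f x y t) :
    F.PL (y, t) (x - y) = 0 ∧
    F.gam f f (x, t) = 4 * ‖x - y‖ ^ 2 * (1 - ⟪F.n (x, t), F.n (y, t)⟫_ℝ ^ 2) ∧
    -4 * (1 - |⟪F.n (x, t), F.n (y, t)⟫_ℝ|) ≤ F.box f (x, t) := by
  obtain ⟨h0, -, h2, h3, h4⟩ := two_slice hF.1 hx hy hf h
  refine ⟨h0, h2, ?_⟩
  rw [hF.2 _ hx, hF.2 _ hy] at h4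
  change _ ≤ F.Dt f (x, t) - F.lap f (x, t)
  linarith

theorem sum_B_PL (B : ST →L[ℝ] ST →L[ℝ] ℝ) (hF : F.Reg) (hp : p ∈ F.M) :
    ∑ a, B (F.PL p (ee a), 0) (F.PL p (ee a), 0) =
      ∑ a, B (ee a, 0) (ee a, 0) - B (F.n p, 0) (F.n p, 0) := by
  have e : ∀ a, ((F.PL p (ee a), 0) : ST) = (ee a, 0) - F.n p a • (F.n p, 0) := fun a => by
    ext1
    · simp only [Mv.PL, inner_ee, Prod.fst_sub, Prod.smul_fst]
    · simp
  have e1 : ((F.n p, 0) : ST) = ∑ a, F.n p a • ((ee a, 0) : ST) := by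
    ext1
    · rw [Prod.fst_sum]; exact eq_sum_ee _
    · rw [Prod.snd_sum]; simp
  have a1 := inner_eq_sum (F.n p) (F.n p)
  rw [hF.inner_n hp] at a1
  have b1 := congrArg (fun w => B w (F.n p, 0)) e1
  have b2 := congrArg (fun w => B (F.n p, 0) w) e1
  simp only [e, map_sub, map_smul, sub_apply, smul_apply, smul_eq_mul, map_add, add_apply,
    Fin.sum_univ_three] at a1 b1 b2 ⊢
  linear_combination b1 + b2 - B (F.n p, 0) (F.n p, 0) * a1

theorem d2_eq {g : ST → ℝ} (hg : ContDiffAt ℝ 2 g p) (v : E) :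
    A.d2 g p v = fderiv ℝ (fderiv ℝ g) p (v, 0) (v, 0) := by
  have d2 : HasFDerivAt (fderiv ℝ g) (fderiv ℝ (fderiv ℝ g) p) p :=
    ((hg.fderiv_right (m := 1) (by norm_num)).differentiableAt (by simp)).hasFDerivAt
  rw [A.d2, (d2.clm_apply (hasFDerivAt_const ((v, 0) : ST) p)).fderiv]
  simp

/-- `hb` is the heat operator of the flow on ambient functions -/
theorem hb_eq (hF : F.IsMCF) (hp : p ∈ F.M) {g : ST → ℝ} (hg : ContDiffAt ℝ 2 g p) :
    A.hb (F.n p) g p = F.box g p := by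
  rw [box_amb hF hp hg (EventuallyEq.refl _ _), sum_B_PL _ hF.1 hp, A.hb]
  simp only [d2_eq hg]

theorem exp_fd {g : ST → ℝ} {q : ST} (hg : DifferentiableAt ℝ g q) (v : ST) :
    fderiv ℝ (fun q => Real.exp (2 * g q)) q v = 2 * Real.exp (2 * g q) * fderiv ℝ g q v := by
  rw [(hg.hasFDerivAt.const_mul 2).exp.fderiv]
  simp only [smul_apply, smul_eq_mul]; ring

theorem exp_fd2 {g : ST → ℝ} (hg : ContDiffAt ℝ 2 g p) (v : ST) :
    fderiv ℝ (fderiv ℝ fun q => Real.exp (2 * g q)) p v v = 2 * Real.exp (2 * g p) *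
      (fderiv ℝ (fderiv ℝ g) p v v + 2 * (fderiv ℝ g p v * fderiv ℝ g p v)) := by
  have hf : ContDiffAt ℝ 2 (fun q => Real.exp (2 * g q)) p := (contDiffAt_const.mul hg).exp
  have d1 : HasFDerivAt (fderiv ℝ fun q => Real.exp (2 * g q))
      (fderiv ℝ (fderiv ℝ fun q => Real.exp (2 * g q)) p) p :=
    ((hf.fderiv_right (m := 1) (by norm_num)).differentiableAt (by simp)).hasFDerivAt
  have d2 : HasFDerivAt (fderiv ℝ g) (fderiv ℝ (fderiv ℝ g) p) p :=
    ((hg.fderiv_right (m := 1) (by norm_num)).differentiableAt (by simp)).hasFDerivAt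
  have ev : ∀ᶠ q in 𝓝 p, DifferentiableAt ℝ g q :=
    (hg.eventually (by simp)).mono fun z hz => hz.differentiableAt (by simp)
  have d3 := (((ev.self_of_nhds.hasFDerivAt.const_mul 2).exp).const_mul 2).mul
    (d2.clm_apply (hasFDerivAt_const v p))
  have := ((d1.clm_apply (hasFDerivAt_const v p)).congr_of_eventuallyEq
    (ev.mono fun q hq => (exp_fd hq v).symm)).unique d3
  have := congrArg (fun L : ST →L[ℝ] ℝ => L v) this
  simp only [add_apply, ContinuousLinearMap.comp_apply, ContinuousLinearMap.flip_apply, zero_apply,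
    map_zero, zero_add, smul_apply, smul_eq_mul] at this
  rw [this]; ring

/-- an inequality for earlier times passes to the top slice -/
theorem two_closure (hF : F.Reg) {Z : E × E × ℝ → ℝ} (hZ : ∀ᶠ z in 𝓝 (x, y, t), ContinuousAt Z z)
    (h : ∀ᶠ z : E × E × ℝ in 𝓝 (x, y, t), (z.1, z.2.2) ∈ F.M → (z.2.1, z.2.2) ∈ F.M → z.2.2 < t →
      0 ≤ Z z) :
    ∀ᶠ z : E × E × ℝ in 𝓝 (x, y, t), (z.1, z.2.2) ∈ F.M → (z.2.1, z.2.2) ∈ F.M → z.2.2 ≤ t →
      0 ≤ Z z := by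
  filter_upwards [hZ, h.eventually_nhds] with z hc hz h1 h2 h3
  rcases h3.lt_or_eq with h3 | h3
  · exact hz.self_of_nhds h1 h2 h3
  obtain ⟨γ, e0, ev, e1⟩ := time_curve hF h1
  obtain ⟨η, f0, fv, f1⟩ := time_curve hF h2
  simp only at e0 ev e1 f0 fv f1
  have ht : Tendsto (fun s => (γ s, η s, s)) (𝓝 z.2.2) (𝓝 z) := by
    have : ContinuousAt (fun s => (γ s, η s, s)) z.2.2 :=
      e1.continuousAt.prodMk (f1.continuousAt.prodMk continuousAt_id)
    simpa only [ContinuousAt, e0, f0] using this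
  refine ge_of_tendsto ((hc.tendsto.comp ht).mono_left (nhdsWithin_le_nhds (s := Iio z.2.2))) ?_
  filter_upwards [nhdsWithin_le_nhds (ht.eventually hz), nhdsWithin_le_nhds ev,
    nhdsWithin_le_nhds fv, self_mem_nhdsWithin] with s a b c d
  exact a b c (h3 ▸ d)

theorem twoS_holds : A.TwoS := by
  intro F hF x y t g hx hy hxy hg h h0
  have hd : 0 < dist x y := dist_pos.2 hxy
  have c1 : Continuous fun z : E × E × ℝ => ((z.1, z.2.2) : ST) := by fun_prop
  have c2 : Continuous fun z : E × E × ℝ => (((z.1, z.2.2), z.2.1) : ST × E) := by fun_prop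
  have c3 : Continuous fun z : E × E × ℝ => dist z.1 z.2.1 := by fun_prop
  have hne : ∀ᶠ z : E × E × ℝ in 𝓝 (x, y, t), 0 < dist z.1 z.2.1 :=
    c3.continuousAt.eventually (lt_mem_nhds hd)
  have h1 := two_closure hF.1 (Z := fun z => Real.log (dist z.1 z.2.1) - g (z.1, z.2.2))
    (x := x) (y := y) (t := t) (by
      filter_upwards [hne, (c1.tendsto (x, y, t)).eventually (hg.eventually (by simp))]
        with z a b
      exact (c3.continuousAt.log a.ne').sub (ContinuousAt.comp (f := fun z : E × E × ℝ => ((z.1, z.2.2) : ST)) b.continuousAt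
          c1.continuousAt))
    (((c2.tendsto (x, y, t)).eventually h).mono fun z hz a b c => sub_nonneg.2 (hz a b c))
  have e0 : g (x, t) = Real.log (dist x y) :=
    le_antisymm (sub_nonneg.1 (h1.self_of_nhds hx hy le_rfl)) h0
  have ex : ∀ d : ℝ, 0 < d → Real.exp (2 * Real.log d) = d ^ 2 := fun d hd => by
    rw [two_mul, Real.exp_add, Real.exp_log hd, sq]
  have e1 : Real.exp (2 * g (x, t)) = ‖x - y‖ ^ 2 := by rw [e0, ex _ hd, dist_eq_norm]
  have hm : TwoMin F (fun q => Real.exp (2 * g q)) x y t := by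
    filter_upwards [h1, hne] with z a b k1 k2 k3
    rw [e1, sub_self, sub_nonneg, ← dist_eq_norm, ← ex _ b]
    exact Real.exp_le_exp.2 (by linarith [a k1 k2 k3])
  have hf : ContDiffAt ℝ 2 (fun q => Real.exp (2 * g q)) (x, t) := (contDiffAt_const.mul hg).exp
  have hgd : DifferentiableAt ℝ g (x, t) := hg.differentiableAt (by simp)
  obtain ⟨-, k2, k3⟩ := two_sq hF hx hy hf.contDiffWithinAt hm
  rw [box_amb hF hx hf (EventuallyEq.refl _ _)] at k3
  change (∑ a, F.D a _ * F.D a _) (x, t) = _ at k2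
  simp only [Finset.sum_apply, Pi.mul_apply,
    D_eq hF.1 hx (hf.differentiableAt (by simp)) (EventuallyEq.refl _ _), exp_fd hgd, e1] at k2
  simp only [exp_fd hgd, exp_fd2 hg, e1] at k3
  rw [hb_eq hF hx hg, box_amb hF hx hg (EventuallyEq.refl _ _)]
  have hc : |⟪F.n (x, t), F.n (y, t)⟫_ℝ| ≤ 1 := by
    simpa [hF.1.norm_n hx, hF.1.norm_n hy] using abs_real_inner_le_norm (F.n (x, t)) (F.n (y, t))
  have hD : 0 < ‖x - y‖ ^ 2 := by rw [← e1]; exact Real.exp_pos _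
  rw [← sq_abs ⟪F.n (x, t), F.n (y, t)⟫_ℝ] at k2
  have hc0 := abs_nonneg ⟪F.n (x, t), F.n (y, t)⟫_ℝ
  generalize |⟪F.n (x, t), F.n (y, t)⟫_ℝ| = c at *
  generalize ‖x - y‖ ^ 2 = D at *
  simp only [Fin.sum_univ_three] at k2 k3 ⊢
  generalize fderiv ℝ g (x, t) (F.PL (x, t) (ee 0), 0) = u0 at *
  generalize fderiv ℝ g (x, t) (F.PL (x, t) (ee 1), 0) = u1 at *
  generalize fderiv ℝ g (x, t) (F.PL (x, t) (ee 2), 0) = u2 at *
  have k4 : D * (u0 * u0 + u1 * u1 + u2 * u2) = 1 - c ^ 2 :=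
    mul_left_cancel₀ hD.ne' (by linear_combination k2 / 4)
  refine nonneg_of_mul_nonneg_right ?_ hD
  nlinarith [mul_nonneg hc0 (sub_nonneg.2 hc)]

end Crest.Agent.N250.MP

end
end

-- ▼ part N250/Min/Two
section

/-!
# Row 250 (helper10): the static two-point inequality, persistence of nearest points
-/

set_option autoImplicit false
open MeasureTheory Set Filter Topology Metric
open scoped ContDiff InnerProductSpace
open Crest.GeometryTopology.MCF

noncomputable section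

namespace Crest.Agent.N250.Min

open MP (Aq)

variable {F : Mv} {t : ℝ} {x y : E}

/-- `e` is a Parseval frame of `n^⊥` -/
def Fr (n : E) (e : Fin 3 → E) : Prop :=
  (∀ a, ⟪n, e a⟫_ℝ = 0) ∧ ∀ v w : E, ∑ a, ⟪v, e a⟫_ℝ * ⟪w, e a⟫_ℝ = ⟪v, w⟫_ℝ - ⟪v, n⟫_ℝ * ⟪w, n⟫_ℝ

theorem frame {n m : E} (hn : ⟪n, n⟫_ℝ = 1) (hm : ⟪m, m⟫_ℝ = 1) (hc : 0 ≤ ⟪n, m⟫_ℝ) :
    ∃ e f : Fin 3 → E, Fr n e ∧ Fr m f ∧ ∑ a, ‖e a - f a‖ ^ 2 = 2 * (1 - ⟪n, m⟫_ℝ) := by
  set c := ⟪n, m⟫_ℝ with hcd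
  obtain ⟨k, hk⟩ : ∃ k, k * (1 + c) = 1 := ⟨(1 + c)⁻¹, inv_mul_cancel₀ (by linarith)⟩
  have hc' : ⟪m, n⟫_ℝ = c := real_inner_comm _ _
  have key : ∀ κ : ℝ, ∀ v w : E, ∑ a, ⟪v, ee a - n a • n - (κ * (m a - c * n a)) • (n + m)⟫_ℝ *
      ⟪w, ee a - n a • n - (κ * (m a - c * n a)) • (n + m)⟫_ℝ =
      ⟪v - ⟪v, n⟫_ℝ • n - (κ * ⟪v, n + m⟫_ℝ) • (m - c • n),
        w - ⟪w, n⟫_ℝ • n - (κ * ⟪w, n + m⟫_ℝ) • (m - c • n)⟫_ℝ := fun κ v w => by
    rw [inner_eq_sum (v - _ - _)]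
    refine Finset.sum_congr rfl fun a _ => ?_
    simp only [inner_sub_right, real_inner_smul_right, inner_ee, PiLp.sub_apply, PiLp.smul_apply,
      smul_eq_mul]
    ring
  refine ⟨fun a => ee a - n a • n - (0 * (m a - c * n a)) • (n + m),
    fun a => ee a - n a • n - (k * (m a - c * n a)) • (n + m), ⟨fun a => ?_, fun v w => ?_⟩,
    ⟨fun a => ?_, fun v w => ?_⟩, ?_⟩
  · simp only [inner_sub_right, real_inner_smul_right, inner_ee, hn]; ring
  · rw [key]
    simp only [zero_mul, zero_smul, sub_zero, inner_sub_left, inner_sub_right,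
      real_inner_smul_left, real_inner_smul_right, hn, real_inner_comm w n]
    ring
  · simp only [inner_sub_right, real_inner_smul_right, inner_ee, inner_add_right, hm, hc']
    linear_combination (-(m a - c * n a)) * hk
  · rw [key]
    simp only [inner_sub_left, inner_sub_right, inner_add_right,
      real_inner_smul_left, real_inner_smul_right, hn, hm, hc', ← hcd, real_inner_comm w n,
      real_inner_comm w m]
    linear_combination (-(⟪v, n⟫_ℝ + ⟪v, m⟫_ℝ) * (⟪w, n⟫_ℝ + ⟪w, m⟫_ℝ) +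
      ⟪v, n⟫_ℝ * (⟪w, n⟫_ℝ + ⟪w, m⟫_ℝ) + (⟪v, n⟫_ℝ + ⟪v, m⟫_ℝ) * ⟪w, n⟫_ℝ +
      k * (1 - c) * (⟪v, n⟫_ℝ + ⟪v, m⟫_ℝ) * (⟪w, n⟫_ℝ + ⟪w, m⟫_ℝ)) * hk
  · have h1 : ‖n + m‖ ^ 2 = 2 + 2 * c := by
      rw [norm_add_sq_real, ← real_inner_self_eq_norm_sq, ← real_inner_self_eq_norm_sq, hn, hm]
      ring
    have h2 : ∀ a, ‖(ee a - n a • n - (0 * (m a - c * n a)) • (n + m)) -
        (ee a - n a • n - (k * (m a - c * n a)) • (n + m))‖ ^ 2 =
        k ^ 2 * (2 + 2 * c) * (m a - c * n a) ^ 2 := fun a => by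
      rw [zero_mul, zero_smul, sub_zero, sub_sub_cancel, norm_smul, mul_pow, h1, Real.norm_eq_abs,
        sq_abs]; ring
    simp only [h2, ← Finset.mul_sum]
    rw [inner_eq_sum] at hn hm hcd
    simp only [Fin.sum_univ_three] at hn hm hcd ⊢
    have h3 : (m 0 - c * n 0) ^ 2 + (m 1 - c * n 1) ^ 2 + (m 2 - c * n 2) ^ 2 = 1 - c ^ 2 := by
      linear_combination hm + c ^ 2 * hn + 2 * c * hcd
    rw [h3]
    linear_combination (2 * (1 - c) * (k * (1 + c) + 1)) * hk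

theorem Fr.neg {n : E} {e : Fin 3 → E} (h : Fr (-n) e) : Fr n e :=
  ⟨fun a => by simpa using h.1 a, fun v w => by simpa using h.2 v w⟩

theorem Fr.norm {n : E} {e : Fin 3 → E} (h : Fr n e) (hn : ⟪n, n⟫_ℝ = 1) :
    ∑ a, ‖e a‖ ^ 2 = 2 := by
  have h1 : ∀ i, ∑ a, e a i * e a i = 1 - n i * n i := fun i => by
    have := h.2 (ee i) (ee i)
    simp only [real_inner_comm _ (ee i), inner_ee] at this
    simpa using this
  simp only [← real_inner_self_eq_norm_sq, inner_eq_sum] at hn ⊢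
  rw [Finset.sum_comm]
  simp only [h1, Fin.sum_univ_three] at hn ⊢
  linarith

theorem Fr.trace (hF : F.Reg) {p : ST} (hp : p ∈ F.M) {e : Fin 3 → E} (h : Fr (F.n p) e) :
    ∑ a, Aq F p (e a) (e a) = F.H p := by
  have h1 : ∀ i j, ∑ a, e a i * e a j = ee j i - F.n p i * F.n p j := fun i j => by
    have := h.2 (ee i) (ee j)
    simpa only [real_inner_comm _ (ee i), real_inner_comm (F.n p) (ee j),
      real_inner_comm (e _) (ee j), inner_ee] using this
  have h2 := MP.Aq_n hF hp (F.n p)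
  simp only [Aq] at h2 ⊢
  rw [Finset.sum_comm]
  simp only [Finset.sum_comm (s := (Finset.univ : Finset (Fin 3)))
    (f := fun a j => F.A _ j p * (e a _ * e a j)), ← Finset.mul_sum, h1]
  simp only [Mv.H, Finset.sum_apply, Fin.sum_univ_three, ee, PiLp.single_apply] at h2 ⊢
  simp
  linarith

theorem pair (hF : F.Reg) (hx : x ∈ F.sl t) (hy : y ∈ F.sl t) {p : E} {Θ Θ' : ℝ → ℝ} {Θ'' : ℝ}
    (h1 : ∀ᶠ u in 𝓝 (‖x - p‖ ^ 2), HasDerivAt Θ (Θ' u) u) (h2 : HasDerivAt Θ' Θ'' (‖x - p‖ ^ 2))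
    (h0 : Θ (‖x - p‖ ^ 2) = ‖x - y‖ ^ 2)
    (hm : ∀ᶠ q in 𝓝 (x, y), q.1 ∈ F.sl t → q.2 ∈ F.sl t → Θ (‖q.1 - p‖ ^ 2) ≤ ‖q.1 - q.2‖ ^ 2)
    {e f : E} (he : ⟪F.n (x, t), e⟫_ℝ = 0) (hf : ⟪F.n (y, t), f⟫_ℝ = 0) :
    Θ' (‖x - p‖ ^ 2) * ⟪x - p, e⟫_ℝ = ⟪x - y, e - f⟫_ℝ ∧
    2 * Θ'' * (⟪x - p, e⟫_ℝ * ⟪x - p, e⟫_ℝ) + Θ' (‖x - p‖ ^ 2) *
      (‖e‖ ^ 2 - Aq F (x, t) e e * ⟪x - p, F.n (x, t)⟫_ℝ) ≤
      ‖e - f‖ ^ 2 - Aq F (x, t) e e * ⟪x - y, F.n (x, t)⟫_ℝ +
        Aq F (y, t) f f * ⟪x - y, F.n (y, t)⟫_ℝ := by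
  obtain ⟨α, α', a0, a1, hα, a2, -⟩ := curve hF hx he
  obtain ⟨β, β', b0, b1, hβ, b2, -⟩ := curve hF hy hf
  have dα : HasDerivAt α e 0 := by have := hα.self_of_nhds.2; rwa [a1] at this
  have dβ : HasDerivAt β f 0 := by have := hβ.self_of_nhds.2; rwa [b1] at this
  have du : HasDerivAt (fun s => ‖α s - p‖ ^ 2) (2 * ⟪x - p, e⟫_ℝ) 0 := by
    have := (dα.sub_const p).norm_sq; rwa [a0] at this
  have tu : Tendsto (fun s => ‖α s - p‖ ^ 2) (𝓝 0) (𝓝 (‖x - p‖ ^ 2)) := by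
    have := du.continuousAt.tendsto; rwa [a0] at this
  have tq : Tendsto (fun s => (α s, β s)) (𝓝 0) (𝓝 (x, y)) := by
    have := (dα.prodMk dβ).continuousAt.tendsto; rwa [a0, b0] at this
  have hM : IsLocalMax (fun s => Θ (‖α s - p‖ ^ 2) - ‖α s - β s‖ ^ 2) 0 := by
    filter_upwards [tq.eventually hm, hα, hβ] with s k1 k2 k3
    have := k1 k2.1 k3.1
    simp only [a0, b0, h0] at this ⊢
    linarith
  have d1 : ∀ᶠ s in 𝓝 (0 : ℝ), HasDerivAt (fun s => Θ (‖α s - p‖ ^ 2) - ‖α s - β s‖ ^ 2)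
      (Θ' (‖α s - p‖ ^ 2) * (2 * ⟪α s - p, α' s⟫_ℝ) - 2 * ⟪α s - β s, α' s - β' s⟫_ℝ) s := by
    filter_upwards [tu.eventually h1, hα, hβ] with s k1 k2 k3
    exact (k1.comp s (k2.2.sub_const p).norm_sq).sub (k2.2.sub k3.2).norm_sq
  have h2' : HasDerivAt Θ' Θ'' ((fun s => ‖α s - p‖ ^ 2) 0) := by simpa only [a0] using h2
  have d2 := ((h2'.comp 0 du).mul (((dα.sub_const p).inner ℝ a2).const_mul 2)).sub
    (((dα.sub dβ).inner ℝ (a2.sub b2)).const_mul 2)
  have k1 := hM.hasDerivAt_eq_zero d1.self_of_nhds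
  have k2 := MP.second_nonpos hM d1 d2
  simp only [a0, b0, a1, b1, Function.comp_apply, Pi.sub_apply, inner_sub_right (x - y) (_ • _),
    real_inner_smul_right, real_inner_self_eq_norm_sq] at k1 k2
  constructor <;> linarith

theorem norm_PL_sq (hF : F.Reg) {p : ST} (hp : p ∈ F.M) (v : E) :
    ‖F.PL p v‖ ^ 2 = ‖v‖ ^ 2 - ⟪v, F.n p⟫_ℝ ^ 2 := by
  rw [← inner_PL_self hF hp, Mv.PL, inner_sub_right, real_inner_smul_right,
    real_inner_self_eq_norm_sq, real_inner_comm v]; ring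

/-- the two-point inequality for minimal slices -/
theorem two_pt (hF : F.Reg) (hc : Crit F t x y) (Hx : F.H (x, t) = 0) (Hy : F.H (y, t) = 0)
    {p : E} {Θ Θ' : ℝ → ℝ} {Θ'' : ℝ}
    (h1 : ∀ᶠ u in 𝓝 (‖x - p‖ ^ 2), HasDerivAt Θ (Θ' u) u) (h2 : HasDerivAt Θ' Θ'' (‖x - p‖ ^ 2))
    (h0 : Θ (‖x - p‖ ^ 2) = ‖x - y‖ ^ 2)
    (hm : ∀ᶠ q in 𝓝 (x, y), q.1 ∈ F.sl t → q.2 ∈ F.sl t → Θ (‖q.1 - p‖ ^ 2) ≤ ‖q.1 - q.2‖ ^ 2) :
    ∃ C τ : ℝ, 0 ≤ C ∧ 0 ≤ τ ∧ τ ≤ ‖x - p‖ ^ 2 ∧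
      ‖x - y‖ ^ 2 * (1 - C ^ 2) = Θ' (‖x - p‖ ^ 2) ^ 2 * τ ∧
      Θ'' * τ + Θ' (‖x - p‖ ^ 2) ≤ 1 - C := by
  obtain ⟨hx, hy, -, hP⟩ := hc
  have n1 := hF.inner_n (p := (x, t)) hx
  have n2 := hF.inner_n (p := (y, t)) hy
  obtain ⟨e, f, he, hf, hs⟩ : ∃ e f : Fin 3 → E, Fr (F.n (x, t)) e ∧ Fr (F.n (y, t)) f ∧
      ∑ a, ‖e a - f a‖ ^ 2 = 2 * (1 - |⟪F.n (x, t), F.n (y, t)⟫_ℝ|) := by
    rcases le_total 0 ⟪F.n (x, t), F.n (y, t)⟫_ℝ with h | h
    · rw [abs_of_nonneg h]; exact frame n1 n2 h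
    · obtain ⟨e, f, k1, k2, k3⟩ := frame (m := -F.n (y, t)) n1 (by simpa using n2) (by simpa using h)
      exact ⟨e, f, k1, k2.neg, by rw [k3, abs_of_nonpos h, inner_neg_right]⟩
  refine ⟨|⟪F.n (x, t), F.n (y, t)⟫_ℝ|, ‖x - p‖ ^ 2 - ⟪x - p, F.n (x, t)⟫_ℝ ^ 2, abs_nonneg _,
    by rw [← norm_PL_sq hF (p := (x, t)) hx]; positivity, by nlinarith, ?_, ?_⟩
  · have k : ∀ a, ⟪x - y, e a⟫_ℝ * ⟪x - y, e a⟫_ℝ =
        Θ' (‖x - p‖ ^ 2) ^ 2 * (⟪x - p, e a⟫_ℝ * ⟪x - p, e a⟫_ℝ) := fun a => by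
      have := (pair hF hx hy h1 h2 h0 hm (he.1 a) (f := 0) (inner_zero_right _)).1
      rw [sub_zero] at this
      rw [← this]; ring
    have k1 := he.2 (x - y) (x - y)
    simp only [k, ← Finset.mul_sum, he.2, real_inner_self_eq_norm_sq] at k1
    have k2 : x - y = ⟪F.n (y, t), x - y⟫_ℝ • F.n (y, t) := sub_eq_zero.1 hP
    have k3 := norm_PL_sq hF (p := (y, t)) hy (x - y)
    have k4 : ⟪x - y, F.n (x, t)⟫_ℝ = ⟪x - y, F.n (y, t)⟫_ℝ * ⟪F.n (x, t), F.n (y, t)⟫_ℝ := by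
      conv_lhs => rw [k2]
      rw [real_inner_smul_left, real_inner_comm (x - y), real_inner_comm (F.n (x, t))]
    rw [hP, norm_zero] at k3
    rw [sq_abs]
    rw [k4] at k1
    linear_combination -k1 + ⟪F.n (x, t), F.n (y, t)⟫_ℝ ^ 2 * k3
  · have k := Finset.sum_le_sum fun a (_ : a ∈ Finset.univ) =>
      (pair hF hx hy h1 h2 h0 hm (he.1 a) (hf.1 a)).2
    simp only [Finset.sum_add_distrib, Finset.sum_sub_distrib, ← Finset.mul_sum, ← Finset.sum_mul,
      he.2, he.norm n1, he.trace hF (p := (x, t)) hx, hf.trace hF (p := (y, t)) hy, Hx, Hy, hs,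
      real_inner_self_eq_norm_sq] at k
    linarith

/-- no critical pairs near the diagonal -/
theorem no_crit (hF : F.Reg) (hx : x ∈ F.sl t) : ∀ᶠ q in 𝓝 (x, x), ¬Crit F t q.1 q.2 := by
  obtain ⟨W, φ, h1, h2⟩ := hF (x, t) hx
  obtain ⟨G, hG⟩ : ∃ G, G = ‖gradX φ x t‖ := ⟨_, rfl⟩
  have G0 : 0 < G := by rw [hG]; exact h2.norm_pos (q := (x, t)) h1
  have d : ∀ᶠ q : ST × ST in 𝓝 ((x, t), (x, t)),
      ‖φ q.1 - φ q.2 - fderiv ℝ φ (x, t) (q.1 - q.2)‖ ≤ G / 2 * ‖q.1 - q.2‖ :=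
    ((h2.contDiffAt h1).hasStrictFDerivAt (by simp)).isLittleO.bound (half_pos G0)
  have t1 : Tendsto (fun q : E × E => (((q.1, t), (q.2, t)) : ST × ST)) (𝓝 (x, x))
      (𝓝 ((x, t), (x, t))) := Continuous.tendsto' (by fun_prop) _ _ rfl
  have hW : ∀ᶠ y in 𝓝 x, (y, t) ∈ W :=
    (by fun_prop : Continuous fun y : E => ((y, t) : ST)).continuousAt.preimage_mem_nhds
      (h2.isOpen.mem_nhds h1)
  have hn : ∀ᶠ y in 𝓝 x, y ∈ F.sl t → 1 / 2 < ⟪F.n (x, t), F.n (y, t)⟫_ℝ := by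
    have : ContinuousWithinAt (fun y => ⟪F.n (x, t), F.n (y, t)⟫_ℝ) (F.sl t) x :=
      ContinuousWithinAt.inner (𝕜 := ℝ) continuousWithinAt_const (cont_n hF x hx)
    exact eventually_nhdsWithin_iff.1
      (this.eventually_const_lt (by simp only [hF.inner_n (p := (x, t)) hx]; norm_num))
  have f1 : Tendsto (fun q : E × E => q.1) (𝓝 (x, x)) (𝓝 x) := continuous_fst.tendsto _
  have f2 : Tendsto (fun q : E × E => q.2) (𝓝 (x, x)) (𝓝 x) := continuous_snd.tendsto _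
  filter_upwards [t1.eventually d, f1.eventually hW, f2.eventually hW, f2.eventually hn]
    with q k1 k2 k3 k4 hq
  obtain ⟨u, v⟩ := q
  obtain ⟨c1, c2, c3, c4⟩ : u ∈ F.sl t ∧ v ∈ F.sl t ∧ v ≠ u ∧ F.PL (v, t) (u - v) = 0 := hq
  dsimp only at k1 k2 k3 k4
  have e1 : φ (u, t) = 0 := (h2.mem _ k2).1 c1
  have e2 : φ (v, t) = 0 := (h2.mem _ k3).1 c2
  have e3 : (((u, t) : ST) - (v, t)) = (u - v, 0) := by simp
  have e4 : ‖((u - v, 0) : ST)‖ = ‖u - v‖ := by simp [Prod.norm_mk]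
  have e5 : fderiv ℝ φ (x, t) (u - v, 0) = G * ⟪F.n (x, t), u - v⟫_ℝ := by
    rw [h2.fderiv_eq h1 hx]; simp only [mul_zero, sub_zero, hG]
  rw [e1, e2, e3, e4, e5] at k1
  have k5 : u - v = ⟪F.n (v, t), u - v⟫_ℝ • F.n (v, t) := sub_eq_zero.1 c4
  generalize ⟪F.n (v, t), u - v⟫_ℝ = a at k5
  have k6 : ‖u - v‖ = |a| := by
    rw [k5, norm_smul, hF.norm_n (p := (v, t)) c2, mul_one, Real.norm_eq_abs]
  have a0 : 0 < |a| := by rw [← k6]; exact norm_pos_iff.2 (sub_ne_zero.2 c3.symm)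
  have k7 := k4 c2
  rw [k6, k5, real_inner_smul_right, sub_zero, zero_sub, norm_neg, Real.norm_eq_abs, abs_mul,
    abs_mul, abs_of_pos G0, abs_of_pos (lt_trans (by norm_num) k7)] at k1
  nlinarith [mul_pos G0 a0]

/-- strict local minima of the distance from a point on the normal line -/
theorem slm (hF : F.Reg) (hy : y ∈ F.sl t) {κ δ : ℝ} (hκ : 0 ≤ κ) (hδ : 0 < δ)
    (hK : IsCompact (F.sl t ∩ closedBall y δ))
    (hA : ∀ z ∈ F.sl t ∩ closedBall y δ, F.A2 (z, t) ≤ κ ^ 2) {o : E}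
    (ho : F.PL (y, t) (o - y) = 0) : ∀ᶠ z in 𝓝 y, z ∈ F.sl t →
      ‖o - y‖ ^ 2 + (1 - κ * ‖o - y‖) * ‖z - y‖ ^ 2 ≤ ‖o - z‖ ^ 2 := by
  obtain ⟨ε, ε0, hε⟩ := Metric.eventually_nhds_iff.1 (no_crit hF hy)
  filter_upwards [ball_mem_nhds y (lt_min (half_pos ε0) (half_pos hδ))] with z hz hzM
  rw [mem_ball, lt_min_iff] at hz
  have hs : closedBall z (dist z y) ⊆ closedBall y δ := closedBall_subset_closedBall' (by linarith)
  have h1 := cr0 (x := z) (y := y) (r := dist z y) hF hκ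
    (hK.of_isClosed_subset (by
      have : F.sl t ∩ closedBall z (dist z y) = (F.sl t ∩ closedBall y δ) ∩ closedBall z (dist z y) :=
        Set.ext fun w => ⟨fun h => ⟨⟨h.1, hs h.2⟩, h.2⟩, fun h => ⟨h.1.1, h.2⟩⟩
      rw [this]; exact hK.isClosed.inter isClosed_closedBall) (inter_subset_inter_right _ hs))
    (fun w hw => hA w ⟨hw.1, hs hw.2⟩)
    (fun w hw wz h0 => hε (y := (z, w)) (by
      have := dist_triangle w z y
      have h2 : dist w z ≤ dist z y := hw.2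
      rw [Prod.dist_eq, max_lt_iff]; constructor <;> simp only <;> linarith) ⟨hzM, hw.1, wz, h0⟩)
    ⟨hy, by rw [mem_closedBall, dist_comm]⟩
  have k5 : o - y = ⟪F.n (y, t), o - y⟫_ℝ • F.n (y, t) := sub_eq_zero.1 ho
  set a := ⟪F.n (y, t), o - y⟫_ℝ
  have k6 : ‖o - y‖ = |a| := by
    rw [k5, norm_smul, hF.norm_n (p := (y, t)) hy, mul_one, Real.norm_eq_abs]
  have k7 : ⟪o - y, z - y⟫_ℝ ≤ ‖o - y‖ * (κ / 2 * ‖z - y‖ ^ 2) := by
    rw [k6, k5, real_inner_smul_left, real_inner_comm]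
    exact (le_abs_self _).trans (by rw [abs_mul]; gcongr)
  rw [show o - z = (o - y) - (z - y) by abel, norm_sub_sq_real (o - y)]
  linarith

/-- nondegenerate nearest points persist -/
theorem persist (hF : F.Reg) (hc : Crit F t x y) {κ δ : ℝ} (hκ : 0 ≤ κ) (hδ : 0 < δ)
    (hK : IsCompact (F.sl t ∩ closedBall y δ))
    (hA : ∀ z ∈ F.sl t ∩ closedBall y δ, F.A2 (z, t) ≤ κ ^ 2) (hd : κ * ‖x - y‖ < 1) :
    ∀ᶠ q in 𝓝 (x, y), q.1 ∈ F.sl t → q.2 ∈ F.sl t →
      ∃ z, Crit F t q.1 z ∧ ‖q.1 - z‖ ≤ ‖q.1 - q.2‖ := by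
  obtain ⟨-, hy, xy, hP⟩ := hc
  obtain ⟨ε, ε0, hε⟩ := Metric.eventually_nhds_iff.1 (slm hF hy hκ hδ hK hA hP)
  have d0 : 0 < dist x y := dist_pos.2 xy.symm
  set θ := 1 - κ * ‖x - y‖ with hθ
  have θ0 : 0 < θ := by linarith
  have θ1 : θ ≤ 1 := by have := mul_nonneg hκ (norm_nonneg (x - y)); linarith
  obtain ⟨r, r0, r1, r2, r3⟩ : ∃ r, 0 < r ∧ r < ε ∧ r ≤ δ ∧ r ≤ dist x y / 2 :=
    ⟨min (ε / 2) (min δ (dist x y / 2)), by positivity, (min_le_left _ _).trans_lt (by linarith),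
      (min_le_right _ _).trans (min_le_left _ _), (min_le_right _ _).trans (min_le_right _ _)⟩
  have hK' : IsCompact ((F.sl t ∩ closedBall y δ) ∩ closedBall y r) :=
    hK.inter_right isClosed_closedBall
  filter_upwards [ball_mem_nhds (x, y) (show 0 < θ * r / 2 by positivity)] with q hq q1 q2
  rw [mem_ball, Prod.dist_eq, max_lt_iff] at hq
  simp only at hq
  have hr : θ * r / 2 ≤ r / 2 := by nlinarith
  have mem : ∀ w ∈ F.sl t, dist w y ≤ r → w ∈ (F.sl t ∩ closedBall y δ) ∩ closedBall y r :=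
    fun w h1 h2 => ⟨⟨h1, h2.trans r2⟩, h2⟩
  obtain ⟨z, hz, hmin⟩ := hK'.exists_isMinOn ⟨y, mem y hy (by simp [r0.le])⟩
    (f := fun z => ‖q.1 - z‖ ^ 2) (by fun_prop)
  have z1 : dist z y ≤ r := hz.2
  have z2 : dist z y < r := by
    have k1 : ‖q.1 - z‖ ^ 2 ≤ ‖q.1 - y‖ ^ 2 := hmin (mem y hy (by simp [r0.le]))
    have k2 := hε (y := z) (z1.trans_lt r1) hz.1.1
    have k3 := real_inner_le_norm (q.1 - x) (z - y)
    have k4 : ⟪q.1 - y, z - y⟫_ℝ = ⟪x - y, z - y⟫_ℝ + ⟪q.1 - x, z - y⟫_ℝ := by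
      rw [← inner_add_left]; congr 1; abel
    rw [show q.1 - z = (q.1 - y) - (z - y) by abel, norm_sub_sq_real (q.1 - y)] at k1
    rw [show x - z = (x - y) - (z - y) by abel, norm_sub_sq_real (x - y)] at k2
    refine lt_of_le_of_ne z1 fun h => ?_
    rw [dist_eq_norm] at h
    have k5 := hq.1
    rw [dist_eq_norm] at k5
    rw [h] at k1 k2 k3
    nlinarith
  refine ⟨z, ⟨q1, hz.1.1, ?_, ?_⟩, ?_⟩
  · rintro rfl
    have := dist_triangle x q.1 y
    rw [dist_comm x q.1] at this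
    linarith
  · set T := F.PL (z, t) (q.1 - z) with hT
    obtain ⟨γ, γ', g0, g1, hγ, -, -⟩ := curve hF hz.1.1 (inner_PL hF (p := (z, t)) hz.1.1 (q.1 - z))
    have d1 : HasDerivAt γ T 0 := by have := hγ.self_of_nhds.2; rwa [g1] at this
    have d2 := (d1.const_sub q.1).norm_sq
    have hm : IsLocalMin (fun s => ‖q.1 - γ s‖ ^ 2) 0 := by
      have : ∀ᶠ s in 𝓝 (0 : ℝ), γ s ∈ ball y r :=
        d1.continuousAt.preimage_mem_nhds (by rw [g0]; exact isOpen_ball.mem_nhds z2)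
      filter_upwards [hγ, this] with s h1 h2
      rw [g0]; exact hmin (mem _ h1.1 (le_of_lt h2))
    have := hm.hasDerivAt_eq_zero d2
    rw [g0, inner_neg_right, inner_PL_self hF (p := (z, t)) hz.1.1] at this
    exact norm_eq_zero.1 (pow_eq_zero_iff two_ne_zero |>.1 (by linarith))
  · exact (abs_le_of_sq_le_sq' (hmin (mem q.2 q2 (by linarith))) (norm_nonneg _)).2

end Crest.Agent.N250.Min

end
end

-- ▼ part N250/Min/An
section

/-!
# Row 250 (helper10): the annulus lemma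
-/

set_option autoImplicit false
open MeasureTheory Set Filter Topology Metric
open scoped ContDiff InnerProductSpace
open Crest.GeometryTopology.MCF

noncomputable section

namespace Crest.Agent.N250.Min

variable {F : Mv} {t : ℝ} {x y : E}

theorem hasDerivAt_w {R h u : ℝ} (hR : 0 < R) (hu : 0 < u) :
    HasDerivAt (fun u => (u / R ^ 2) ^ h) (h * (u / R ^ 2) ^ h / u) u := by
  have h0 : u / R ^ 2 ≠ 0 := by positivity
  refine (((hasDerivAt_id u).div_const (R ^ 2)).rpow_const (p := h) (Or.inl h0)).congr_deriv ?_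
  simp only [id, Real.rpow_sub_one h0]
  field_simp

theorem rpow_half {r R g : ℝ} (hr : 0 ≤ r) (hR : 0 < R) :
    (r ^ 2 / R ^ 2) ^ (g / 2) = (r / R) ^ g := by
  rw [← div_pow, ← Real.rpow_natCast, ← Real.rpow_mul (by positivity)]
  congr 1; push_cast; ring

theorem one_le_w {r R g : ℝ} (hR : 0 < R) (hr : R ≤ r) (hg : 0 ≤ g) : 1 ≤ (r / R) ^ g :=
  Real.one_le_rpow ((one_le_div hR).2 hr) hg

theorem w_sq {r R g : ℝ} (hR : 0 < R) (hr : R ≤ r) (hg : g ≤ 1 / 2) :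
    ((r / R) ^ g) ^ 2 ≤ r / R := by
  have h1 := (one_le_div hR).2 hr
  rw [← Real.rpow_natCast, ← Real.rpow_mul (by positivity)]
  conv_rhs => rw [← Real.rpow_one (r / R)]
  exact Real.rpow_le_rpow_of_exponent_le h1 (by push_cast; linarith)

theorem beta_le {r R g : ℝ} (hR : 0 < R) (hr : R ≤ r) (hg0 : 0 ≤ g) (hg : g ≤ 1 / 2) :
    R * ((r / R) ^ g - 1) ^ 2 ≤ r := by
  have h1 := one_le_w hR hr hg0
  have h2 := w_sq hR hr hg
  rw [le_div_iff₀ hR] at h2
  nlinarith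

theorem scal {R r h a v τ C : ℝ} (hR : 0 < R) (hx : R < r) (h1 : 0 < h) (h2 : h ≤ 1 / 4)
    (a0 : 0 < a) (a1 : a ≤ R / 8) (w2 : 1 < v) (w3 : v ^ 2 ≤ r / R) (τ0 : 0 ≤ τ) (τ1 : τ ≤ r ^ 2)
    (C0 : 0 ≤ C) (e1 : (a * (v - 1) ^ 2) ^ 2 * (1 - C ^ 2) =
      (a ^ 2 * (4 * (v - 1) ^ 3 * (h * v / r ^ 2))) ^ 2 * τ)
    (e2 : a ^ 2 * (12 * (v - 1) ^ 2 * (h * v / r ^ 2) ^ 2 +
      4 * (v - 1) ^ 3 * (h * (h - 1) * v / (r ^ 2) ^ 2)) * τ +
      a ^ 2 * (4 * (v - 1) ^ 3 * (h * v / r ^ 2)) ≤ 1 - C) : False := by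
  have r0 : 0 < r := hR.trans hx
  have u0 : 0 < r ^ 2 := by positivity
  have e4 : h * (h - 1) * v / (r ^ 2) ^ 2 = (h - 1) * (h * v / r ^ 2) / r ^ 2 := by field_simp
  have k2 : a * (v - 1) * (h * v / r ^ 2) * r = h * (a * ((v - 1) * v)) / r := by field_simp
  have k1 : v ^ 2 * R ≤ r := (le_div_iff₀ hR).1 w3
  have k3 : a * ((v - 1) * v) ≤ r / 8 := by
    calc a * ((v - 1) * v) ≤ R / 8 * (v * v) := by gcongr; linarith
      _ ≤ r / 8 := by nlinarith
  have e7 : a * (v - 1) * (h * v / r ^ 2) * r ≤ 1 / 32 := by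
    rw [k2, div_le_iff₀ r0]
    calc h * (a * ((v - 1) * v)) ≤ 1 / 4 * (r / 8) := by gcongr
      _ = _ := by ring
  have q0 : 0 < h * v / r ^ 2 := div_pos (mul_pos h1 (by linarith)) u0
  have b0 : 0 < v - 1 := by linarith
  rw [e4] at e2
  generalize h * v / r ^ 2 = q at *
  generalize v - 1 = b at *
  have e3 : 1 - C ^ 2 = 16 * (a * b * q) ^ 2 * τ := by
    have : 0 < a ^ 2 * b ^ 4 := by positivity
    apply mul_left_cancel₀ this.ne'
    linear_combination e1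
  have e5 : 0 < (h - 1) * q / r ^ 2 * τ + q := by
    have : τ / r ^ 2 ≤ 1 := (div_le_one u0).2 τ1
    have h3 : (h - 1) * q / r ^ 2 * τ + q = q * (1 - (1 - h) * (τ / r ^ 2)) := by ring
    rw [h3]
    exact mul_pos q0 (by nlinarith)
  have e6 : 3 / 4 * (1 - C ^ 2) < 1 - C := by
    have : 0 < a ^ 2 * (4 * b ^ 3) * ((h - 1) * q / r ^ 2 * τ + q) := by positivity
    rw [e3]; linarith
  have e8 : 1 - C ^ 2 ≤ 1 / 64 := by
    have k1 : (a * b * q * r) ^ 2 ≤ (1 / 32) ^ 2 := pow_le_pow_left₀ (by positivity) e7 2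
    calc 1 - C ^ 2 ≤ 16 * (a * b * q) ^ 2 * r ^ 2 := by rw [e3]; gcongr
      _ ≤ 1 / 64 := by linarith
  have e9 : 0 ≤ 1 - C ^ 2 := by rw [e3]; positivity
  nlinarith

/-- the barrier cannot be touched -/
theorem no_touch (hF : F.Reg) (hc : Crit F t x y) (Hx : F.H (x, t) = 0) (Hy : F.H (y, t) = 0)
    {p : E} {R g a : ℝ} (hR : 0 < R) (hx : R < ‖x - p‖) (g0 : 0 < g) (g1 : g ≤ 1 / 2) (a0 : 0 < a)
    (a1 : a ≤ R / 8) (h0 : a * ((‖x - p‖ / R) ^ g - 1) ^ 2 = ‖x - y‖)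
    (hm : ∀ᶠ q in 𝓝 (x, y), q.1 ∈ F.sl t → q.2 ∈ F.sl t →
      a * ((‖q.1 - p‖ / R) ^ g - 1) ^ 2 ≤ ‖q.1 - q.2‖) : False := by
  set h := g / 2 with hh
  let w : ℝ → ℝ := fun u => (u / R ^ 2) ^ h
  have u0 : 0 < ‖x - p‖ ^ 2 := pow_pos (hR.trans hx) 2
  have hw : ∀ u, 0 < u → HasDerivAt w (h * w u / u) u := fun u hu => hasDerivAt_w hR hu
  have hΘ : ∀ z : E, a ^ 2 * (w (‖z - p‖ ^ 2) - 1) ^ 4 = (a * ((‖z - p‖ / R) ^ g - 1) ^ 2) ^ 2 :=
    fun z => by simp only [w, hh, rpow_half (norm_nonneg _) hR]; ring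
  obtain ⟨C, τ, C0, τ0, τ1, e1, e2⟩ := two_pt hF hc Hx Hy (p := p)
    (Θ := fun u => a ^ 2 * (w u - 1) ^ 4)
    (Θ' := fun u => a ^ 2 * (4 * (w u - 1) ^ 3 * (h * w u / u)))
    (Θ'' := a ^ 2 * (12 * (w (‖x - p‖ ^ 2) - 1) ^ 2 * (h * w (‖x - p‖ ^ 2) / ‖x - p‖ ^ 2) ^ 2 +
      4 * (w (‖x - p‖ ^ 2) - 1) ^ 3 * (h * (h - 1) * w (‖x - p‖ ^ 2) / (‖x - p‖ ^ 2) ^ 2)))
    (by
      filter_upwards [Ioi_mem_nhds u0] with u hu
      exact ((((hw u hu).sub_const 1).pow 4).const_mul _).congr_deriv (by norm_num))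
    (by
      refine ((((((hw _ u0).sub_const 1).pow 3).const_mul 4).mul
        (((hw _ u0).const_mul h).div (hasDerivAt_id _) u0.ne')).const_mul (a ^ 2)).congr_deriv ?_
      simp only [id, Pi.div_apply, Pi.pow_apply]
      have := (hR.trans hx).ne'
      field_simp
      ring)
    (by rw [hΘ, h0])
    (hm.mono fun q hq h1 h2 => by
      rw [hΘ]; exact pow_le_pow_left₀ (by positivity) (hq h1 h2) 2)
  have w1 : w (‖x - p‖ ^ 2) = (‖x - p‖ / R) ^ g := rpow_half (norm_nonneg _) hR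
  have w2 : 1 < (‖x - p‖ / R) ^ g := Real.one_lt_rpow ((one_lt_div hR).2 hx) g0
  have w3 := w_sq hR hx.le g1
  simp only [w1, ← h0] at e1 e2
  exact scal hR hx (half_pos g0) (by linarith) a0 a1 w2 w3 τ0 τ1 C0 e1 e2

theorem anS_holds : AnS := by
  refine ⟨1 / 8, 1 / 8, by norm_num, le_rfl, by norm_num, le_rfl, ?_⟩
  intro F t p R R' g hF hR hRR g0 g1 hP hA hout x₁ y₁ hx1 hx2 hc1
  by_contra hlt
  push Not at hlt
  let β : E → ℝ := fun x => 1 / 8 * R * ((dist x p / R) ^ g - 1) ^ 2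
  have βc : Continuous β := by
    have : Continuous fun x : E => (dist x p / R) ^ g :=
      Continuous.rpow_const (by fun_prop) fun _ => Or.inr g0.le
    fun_prop
  have βle : ∀ x, R ≤ dist x p → β x ≤ dist x p / 8 := fun x h => by
    have := beta_le hR h g0.le g1
    simp only [β]; linarith
  have cp : ∀ K : Set E, IsCompact K → (∀ x ∈ K, R / 2 ≤ dist x p ∧ dist x p ≤ 2 * R') →
      IsCompact (F.sl t ∩ K) := fun K h1 h2 => cpt hP h1 fun x hx => ⟨h2 x hx, rfl⟩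
  have ann : ∀ a b : ℝ, IsCompact {x : E | a ≤ dist x p ∧ dist x p ≤ b} := fun a b =>
    (isCompact_closedBall p b).of_isClosed_subset
      (IsClosed.and (isClosed_le (by fun_prop) (by fun_prop)) (isClosed_le (by fun_prop) (by fun_prop)))
      fun x hx => hx.2
  have hK := cp _ (ann (R / 2) (2 * R')) fun _ h => h
  have hK0 := cp _ (ann R R') fun _ h => ⟨by linarith [h.1], by linarith [h.2]⟩
  set K := F.sl t ∩ {x : E | R / 2 ≤ dist x p ∧ dist x p ≤ 2 * R'} with hKd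
  let K' := closure (F.sl t ∩ {x : E | R ≤ dist x p ∧ dist x p < R'})
  have sub : K' ⊆ F.sl t ∩ {x : E | R ≤ dist x p ∧ dist x p ≤ R'} :=
    closure_minimal (fun x hx => ⟨hx.1, hx.2.1, hx.2.2.le⟩) hK0.isClosed
  have hK' : IsCompact K' := hK0.of_isClosed_subset isClosed_closure sub
  -- local data near a point
  have loc : ∀ (y : E) (r : ℝ), R ≤ r → r ≤ R' → |dist y p - r| ≤ r / 8 →
      IsCompact (F.sl t ∩ closedBall y (r / 4)) ∧
      ∀ z ∈ F.sl t ∩ closedBall y (r / 4), F.A2 (z, t) ≤ (1 / (4 * r)) ^ 2 := fun y r r1 r2 hy => by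
    have h1 : ∀ z ∈ closedBall y (r / 4), r / 2 ≤ dist z p ∧ dist z p ≤ 2 * r := fun z hz => by
      have := abs_dist_sub_le z y p
      rw [mem_closedBall] at hz
      rw [abs_le] at this hy
      constructor <;> linarith
    refine ⟨cp _ (isCompact_closedBall _ _) fun z hz => ⟨by linarith [h1 z hz], by
      linarith [h1 z hz]⟩, fun z hz => ?_⟩
    have h2 := h1 z hz.2
    refine (hA z hz.1 (by linarith) (by linarith)).2.trans (pow_le_pow_left₀ (by positivity) ?_ 2)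
    rw [div_le_div_iff₀ (by linarith) (by linarith)]; linarith
  let C₀ := (K' ×ˢ K ∩ {q : E × E | dist q.1 q.2 ≤ β q.1}) ∩
    (fun q : E × E => F.PL (q.2, t) (q.1 - q.2)) ⁻¹' {0}
  have hC₀ : IsCompact C₀ := by
    have h1 : IsCompact (K' ×ˢ K ∩ {q : E × E | dist q.1 q.2 ≤ β q.1}) :=
      (hK'.prod hK).inter_right (isClosed_le (by fun_prop) (by fun_prop))
    refine h1.of_isClosed_subset (ContinuousOn.preimage_isClosed_of_isClosed ?_ h1.isClosed
      isClosed_singleton) inter_subset_left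
    have h2 : ContinuousOn (fun q : E × E => F.n (q.2, t))
        (K' ×ˢ K ∩ {q : E × E | dist q.1 q.2 ≤ β q.1}) :=
      (cont_n hF).comp continuous_snd.continuousOn fun q hq => hq.1.2.1
    exact (by fun_prop : Continuous fun q : E × E => q.1 - q.2).continuousOn.sub
      ((ContinuousOn.inner (𝕜 := ℝ) h2 (by fun_prop)).smul h2)
  let C := C₀ ∩ {q | q.2 ≠ q.1}
  have crit : ∀ q ∈ C, Crit F t q.1 q.2 := fun q hq =>
    ⟨(sub hq.1.1.1.1).1, hq.1.1.1.2.1, hq.2, hq.1.2⟩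
  have hC : IsCompact C := by
    refine hC₀.of_isClosed_subset (isClosed_of_closure_subset fun q hq => ?_) inter_subset_left
    have h1 : q ∈ C₀ := closure_minimal inter_subset_left hC₀.isClosed hq
    refine ⟨h1, fun h => ?_⟩
    have h2 := no_crit hF h1.1.1.2.1
    rw [show (q.2, q.2) = q from Prod.ext h rfl] at h2
    obtain ⟨q', h3, h4⟩ := mem_closure_iff_nhds.1 hq _ h2
    exact h3 (crit q' h4)
  have mem : ∀ x y, R ≤ dist x p → dist x p < R' → Crit F t x y → dist x y ≤ β x → (x, y) ∈ C :=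
    fun x y h1 h2 h3 h4 => by
      have h5 := βle x h1
      have h6 := abs_dist_sub_le x y p
      rw [abs_le] at h6
      exact ⟨⟨⟨⟨subset_closure ⟨h3.1, h1, h2⟩, h3.2.1, by simp only; linarith, by
        simp only; linarith⟩, h4⟩, h3.2.2.2⟩, h3.2.2.1⟩
  have βpos : ∀ q ∈ C, 0 < β q.1 := fun q hq => (dist_pos.2 (Ne.symm hq.2)).trans_le hq.1.1.2
  have m1 := mem x₁ y₁ hx1 hx2 hc1 hlt.le
  obtain ⟨q, hq, hmin'⟩ := hC.exists_isMinOn (f := fun q => dist q.1 q.2 / β q.1) ⟨_, m1⟩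
    (continuous_dist.continuousOn.div (βc.comp continuous_fst).continuousOn
      fun q hq => (βpos q hq).ne')
  obtain ⟨x, y⟩ := q
  have hmin : ∀ u v, (u, v) ∈ C → dist x y / β x ≤ dist u v / β u := fun u v h =>
    isMinOn_iff.1 hmin' (u, v) h
  have hc : Crit F t x y := crit (x, y) hq
  have β0 : 0 < β x := βpos (x, y) hq
  have xK' : x ∈ K' := hq.1.1.1.1
  have xK := sub xK'
  have d0 : 0 < dist x y := dist_pos.2 hc.2.2.1.symm
  have s0 : 0 < dist x y / β x := div_pos d0 β0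
  have s1 : dist x y / β x < 1 := (hmin _ _ m1).trans_lt ((div_lt_one (βpos (x₁, y₁) m1)).2 hlt)
  have s2 : dist x y < β x := (div_lt_one β0).1 s1
  have x1 : R < dist x p := lt_of_le_of_ne xK.2.1 fun h => by
    simp only [β, ← h, div_self hR.ne', Real.one_rpow] at β0
    norm_num at β0
  have r0 : 0 < dist x p := hR.trans x1
  have x2 : dist x p < R' := lt_of_le_of_ne xK.2.2 fun h => by
    by_cases hT : F.PL (x, t) (x - p) = 0
    · obtain ⟨l1, l2⟩ := loc x R' hRR.le le_rfl (by rw [h, sub_self, abs_zero]; linarith)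
      have hT' : F.PL (x, t) (p - x) = 0 := by
        have : F.PL (x, t) (p - x) = -F.PL (x, t) (x - p) := by
          simp only [Mv.PL, ← neg_sub x p, inner_neg_right, neg_smul]; abel
        rw [this, hT, neg_zero]
      have R0 := hR.trans hRR
      have k := slm hF xK.1 (by positivity) (by linarith) l1 l2 hT'
      obtain ⟨z, k1, k2⟩ := mem_closure_iff_nhds.1 xK' _ k
      have k3 := k1 k2.1
      have k4 : ‖p - z‖ < R' := by rw [← dist_eq_norm, dist_comm]; exact k2.2.2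
      have k5 : ‖p - x‖ = R' := by rw [← dist_eq_norm, dist_comm, h]
      have k6 : 1 / (4 * R') * R' = 1 / 4 := by field_simp [(hR.trans hRR).ne']
      simp only [k5, k6] at k3
      nlinarith [norm_nonneg (p - z), sq_nonneg ‖z - x‖]
    · have := hout x y h hT hc
      simp only [β, h] at s2
      linarith
  have h5 := βle x x1.le
  have h6 := abs_dist_sub_le y x p
  rw [dist_comm y x] at h6
  obtain ⟨l1, l2⟩ := loc y (dist x p) x1.le x2.le (by linarith)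
  have per := persist hF hc (by positivity) (by positivity) l1 l2 (by
    rw [← dist_eq_norm, div_mul_eq_mul_div, div_lt_one (by positivity)]; linarith)
  rw [abs_le] at h6
  refine no_touch hF hc (hA x hc.1 (by linarith) (by linarith)).1
    (hA y hc.2.1 (by linarith) (by linarith)).1 (p := p) (a := dist x y / β x * (1 / 8 * R)) hR
    (by rwa [← dist_eq_norm]) g0 g1 (by positivity) (by nlinarith) ?_ ?_
  · rw [← dist_eq_norm, ← dist_eq_norm, mul_assoc]; exact div_mul_cancel₀ _ β0.ne'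
  · have o1 : ∀ᶠ q : E × E in 𝓝 (x, y), R < dist q.1 p :=
      (by fun_prop : Continuous fun q : E × E => dist q.1 p).continuousAt.eventually_const_lt x1
    have o2 : ∀ᶠ q : E × E in 𝓝 (x, y), dist q.1 p < R' :=
      (by fun_prop : Continuous fun q : E × E => dist q.1 p).continuousAt.eventually_lt_const x2
    filter_upwards [per, o1, o2] with q k1 k2 k3 k4 k5
    obtain ⟨z, k6, k7⟩ := k1 k4 k5
    refine le_trans ?_ k7
    rw [← dist_eq_norm, ← dist_eq_norm, mul_assoc]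
    change dist x y / β x * β q.1 ≤ _
    rcases le_total (dist q.1 z) (β q.1) with k8 | k8
    · have := mem _ _ k2.le k3 k6 k8
      exact (le_div_iff₀ (βpos (q.1, z) this)).1 (hmin _ _ this)
    · have : 0 ≤ β q.1 := by positivity
      nlinarith

end Crest.Agent.N250.Min

end
end

-- ▼ part N250/Min/End
section

/-!
# Row 250 (helper72): decay of the curvature and the density of separated ends
-/

set_option autoImplicit false
open MeasureTheory Set Filter Topology Metric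
open scoped ContDiff InnerProductSpace
open Crest.GeometryTopology.MCF

noncomputable section

namespace Crest.Agent.N250.Min

theorem SM.end_mcf {S : Mv} {Λ : ℝ} (h : SM S Λ) : S.IsMCF :=
  ⟨h.reg, fun p hp => by rw [h.st.V_eq, h.min p hp, neg_zero]⟩

theorem decS_of (hC : CSS) : DecS := by
  intro S Λ p l hS hl hP hI η hη
  obtain ⟨κ, hκ, hC⟩ := hC Λ (η ^ 2 / 4) (by positivity)
  filter_upwards [hl.pos, hl.ann _ hP 2 one_lt_two, hI κ hκ] with s hs h1 h2 x hx hd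
  have h3 : ∀ z ∈ ball x (s / 2), s / 2 < dist z p ∧ dist z p < 2 * s := fun z hz => by
    have h4 : dist z x < s / 2 := hz
    have h5 := dist_triangle z x p
    have h6 := dist_triangle x z p
    rw [dist_comm x z] at h6
    constructor <;> linarith
  have := hC S 0 x (s / 2) (by positivity) hS.end_mcf hS.st hS.ar
    (fun q hq hb => h1 _ (h3 _ hb.1).1.le (h3 _ hb.1).2.le q hq rfl)
    ((lintegral_mono_set h3).trans h2) x hx (by rw [dist_self]; positivity)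
  refine this.trans (le_of_eq ?_)
  field_simp
  norm_num

theorem end_reach_st {S : Mv} (hS : S.Static) {x : E} {s t ρ : ℝ} (h : S.Reach (x, s) ρ) :
    S.Reach (x, t) ρ := by
  intro y hy
  have := h y ((CS.st_mem hS y t s).1 hy)
  simpa only [hS.n_eq x s, hS.n_eq x t] using this

theorem endS_of (hB : BlS) : EndS := by
  intro S Λ p l c hS hl hc hP hA hCr ε hε
  set c' := min c 1 with hc'
  have hc0 : 0 < c' := lt_min hc one_pos
  have hc1 : c' ≤ 1 := min_le_right _ _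
  have hc2 : c' ≤ c := min_le_left _ _
  have hR : ∀ᶠ s in l, ∀ y ∈ S.sl 0, dist y p = s → S.Reach (y, 0) (c' / 8 * s) := by
    filter_upwards [hl.pos, hl.ann _ hP 2 one_lt_two, hl.ann _ (hA 1 one_pos) 2 one_lt_two,
      hl.ann _ hCr 2 one_lt_two] with s hs h1 h2 h3 y hy hd
    have h0 : c' * s ≤ s := by nlinarith
    have h4 : ∀ z, dist z y ≤ 2 * (c' * s / 4) → s / 2 ≤ dist z p ∧ dist z p ≤ 2 * s := by
      intro z hz
      have h5 := dist_triangle z y p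
      have h6 := dist_triangle y z p
      rw [dist_comm y z] at h6
      constructor <;> linarith
    refine crS_holds S 0 y (c' * s / 4) (2 / s) _ hS.reg hy
      (fun q hq hb => h1 _ (h4 _ hb.1).1 (h4 _ hb.1).2 q hq rfl) (by positivity)
      (le_of_eq (by ring)) (by positivity) ?_ (fun z hz hd => ?_) fun x z hx hxz => ?_
    · have : 2 / s * (c' / 8 * s) = c' / 4 := by field_simp; ring
      linarith
    · refine (h2 _ (h4 z hd).1 (h4 z hd).2 z hz rfl).trans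
        (pow_le_pow_left₀ (by positivity) ?_ 2)
      rw [div_le_div_iff₀ (by linarith [(h4 z hd).1]) hs]
      linarith [(h4 z hd).1]
    · have h5 := h4 x (by nlinarith [mul_pos hc0 hs])
      have h6 := h3 _ h5.1 h5.2 x z rfl hxz
      nlinarith [mul_le_mul hc2 h5.1 (by positivity) hc.le, mul_pos hc0 hs]
  have key := hB ℝ l (fun R => S.para (p, 0) R⁻¹) Λ (c' / 8) (by positivity) (by linarith)
    (by
      filter_upwards [hl.pos] with R hR0
      exact ⟨Tr.para_mcf _ (inv_pos.2 hR0) hS.end_mcf, Tr.para_ar _ (inv_pos.2 hR0) hS.ar⟩)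
    (by
      intro K η hK hη
      have hK0 : 0 < K := by linarith
      have hm : 0 < min 1 η := lt_min one_pos hη
      filter_upwards [hl.pos, hl.ann _ hP K hK, hl.ann _ (hA (min 1 η / K) (by positivity)) K hK,
        hl.ann _ hR K hK] with R hR0 h1 h2 h3
      have hd : ∀ x : E, dist (p + R • x) p = R * ‖x‖ := fun x => by
        rw [dist_self_add_left, norm_smul, Real.norm_of_nonneg hR0.le]
      have hb : ∀ x : E, K⁻¹ < ‖x‖ → ‖x‖ < K → R / K ≤ R * ‖x‖ ∧ R * ‖x‖ ≤ K * R := fun x a b =>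
        ⟨by rw [div_eq_mul_inv]; exact mul_le_mul_of_nonneg_left a.le hR0.le, by nlinarith⟩
      have hl0 := inv_pos.2 hR0
      refine ⟨?_, fun q hq a b => ?_⟩
      · have hp : S.Proper {q | R / K ≤ dist q.1 p ∧ dist q.1 p ≤ K * R} :=
          fun q hq hb => h1 _ hb.1 hb.2 q hq rfl
        refine ((Tr.pull_para (p, 0) hl0 S).proper hp).mono_set fun q hq => ⟨trivial, ?_⟩
        simpa only [mem_preimage, Tr.paraS_map, inv_inv, mem_ofPred_eq, hd] using
          hb q.1 hq.1.1 hq.1.2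
      · have hq' : p + R • q.1 ∈ S.sl 0 := by
          refine (CS.st_mem hS.st _ (0 + q.2 / R⁻¹ ^ 2) 0).1 ?_
          simpa only [Mv.para, inv_inv, mem_ofPred_eq] using hq
        obtain ⟨b1, b2⟩ := hb q.1 a b
        constructor
        · rw [Tr.para_reach _ hl0 hq, inv_inv]
          refine end_reach_st hS.st (s := 0) ?_
          convert h3 _ b1 b2 _ hq' (hd _) using 1
          field_simp
        · rw [Tr.para_A2 _ hl0 hS.reg hq, inv_inv, CS.inv_A2 hS.st _ _ 0]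
          have h4 := h2 _ b1 b2 _ hq' (hd _)
          have h5 : 0 < ‖q.1‖ := (inv_pos.2 hK0).trans a
          have h6 : 1 ≤ K * ‖q.1‖ := by
            rw [inv_lt_iff_one_lt_mul₀' hK0] at a
            exact a.le
          refine (mul_le_mul_of_nonneg_left h4 (sq_nonneg R)).trans ?_
          have h7 : R ^ 2 * (min 1 η / K / (R * ‖q.1‖)) ^ 2 = (min 1 η / (K * ‖q.1‖)) ^ 2 := by
            field_simp
          rw [h7]
          refine (pow_le_pow_left₀ (by positivity) (div_le_self hm.le h6) 2).trans ?_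
          nlinarith [min_le_left 1 η, min_le_right 1 η])
    ε hε
  filter_upwards [key, hl.pos] with R h hR0
  rw [Tr.para_Fs _ (inv_pos.2 hR0)] at h
  simpa using h

end Crest.Agent.N250.Min

end
end

-- ▼ part N250/Min/At
section

/-!
# Row 250 (helper72): punctures and ends from the annulus lemma
-/

set_option autoImplicit false
open MeasureTheory Set Filter Topology Metric
open scoped ContDiff InnerProductSpace
open Crest.GeometryTopology.MCF

noncomputable section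

namespace Crest.Agent.N250.Min

variable {F : Mv} {t : ℝ} {x y : E}

theorem at_crit_eq (hF : F.Reg) (h : Crit F t x y) :
    ∃ s : ℝ, x - y = s • F.n (y, t) ∧ |s| = dist x y := by
  refine ⟨⟪F.n (y, t), x - y⟫_ℝ, sub_eq_zero.1 h.2.2.2, ?_⟩
  have h1 : x - y = ⟪F.n (y, t), x - y⟫_ℝ • F.n (y, t) := sub_eq_zero.1 h.2.2.2
  rw [dist_eq_norm]
  conv_rhs => rw [h1, norm_smul, hF.norm_n (p := (y, t)) h.2.1, mul_one, Real.norm_eq_abs]

/-- reach at the foot point -/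
theorem at_crit_foot (hF : F.Reg) (h : Crit F t x y) {ρ : ℝ} (hρ : 0 ≤ ρ)
    (hR : F.Reach (y, t) ρ) : 2 * ρ ≤ dist x y := by
  obtain ⟨s, h1, h2⟩ := at_crit_eq hF h
  have h3 := (reach_iff hF (p := (y, t)) h.2.1 hρ).1 hR x h.1
  have h4 : 0 < dist x y := dist_pos.2 h.2.2.1.symm
  dsimp only at h3
  rw [← dist_eq_norm, h1, real_inner_smul_left, hF.inner_n (p := (y, t)) h.2.1, mul_one, h2] at h3
  nlinarith

/-- reach at the other point -/
theorem at_crit_far (hF : F.Reg) (h : Crit F t x y) {ρ κ k : ℝ} (hρ : 0 ≤ ρ)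
    (hR : F.Reach (x, t) ρ) (hκ : 0 ≤ κ) (hk : κ < k) (hkd : 4 * k * dist x y ≤ 1)
    (hK : IsCompact (F.sl t ∩ closedBall y (2 * dist x y)))
    (hA : ∀ z ∈ F.sl t ∩ closedBall y (2 * dist x y), F.A2 (z, t) ≤ κ ^ 2) :
    ρ ≤ 9 * dist x y := by
  obtain ⟨s, h1, h2⟩ := at_crit_eq hF h
  have hr := (reach_iff hF (p := (x, t)) h.1 hρ).1 hR
  dsimp only at hr
  set d := dist x y with hd
  have d0 : 0 < d := dist_pos.2 h.2.2.1.symm
  have k0 : 0 < k := hκ.trans_lt hk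
  set ν := F.n (x, t) with hν
  set m := F.n (y, t) with hm
  have νν : ⟪ν, ν⟫_ℝ = 1 := hF.inner_n (p := (x, t)) h.1
  have mm : ⟪m, m⟫_ℝ = 1 := hF.inner_n (p := (y, t)) h.2.1
  set c := ⟪m, ν⟫_ℝ with hc
  have hyx : y - x = -s • m := by rw [neg_smul, ← h1, neg_sub]
  by_cases hc4 : 1 / 4 ≤ |c|
  · have h3 := hr y h.2.1
    rw [← dist_eq_norm, dist_comm, ← hd, hyx, real_inner_smul_left, abs_mul, abs_neg, h2] at h3
    nlinarith [mul_le_mul_of_nonneg_left hc4 (mul_nonneg hρ d0.le)]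
  have hc5 : |c| < 1 / 4 := not_le.1 hc4
  set z := d • (ν - c • m) with hz
  have z1 : ⟪m, z⟫_ℝ = 0 := by
    rw [hz, real_inner_smul_right, inner_sub_right, real_inner_smul_right, mm]; ring
  have z2 : ⟪z, ν⟫_ℝ = d * (1 - c ^ 2) := by
    rw [hz, real_inner_smul_left, inner_sub_left, real_inner_smul_left, νν]; ring
  have z3 : ‖z‖ ≤ d := by
    have : ‖z‖ ^ 2 = d ^ 2 * (1 - c ^ 2) := by
      rw [← real_inner_self_eq_norm_sq]
      conv_lhs => rw [hz, real_inner_smul_right, ← hz, inner_sub_right, real_inner_smul_right,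
        real_inner_comm m z, z1, z2]
      ring
    exact (sq_le_sq₀ (norm_nonneg _) d0.le).1
      (by nlinarith [mul_nonneg (sq_nonneg d) (sq_nonneg c)])
  have hsub : closedBall y (2 * ‖z‖) ⊆ closedBall y (2 * d) :=
    closedBall_subset_closedBall (by linarith)
  obtain ⟨w, hw, w1, w2, -, w3⟩ := lift hF h.2.1 z1 hκ hk (by nlinarith)
    (by
      have : F.sl t ∩ closedBall y (2 * ‖z‖) =
          F.sl t ∩ closedBall y (2 * d) ∩ closedBall y (2 * ‖z‖) := by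
        rw [inter_assoc, inter_eq_right.2 hsub]
      rw [this]
      exact hK.inter_right isClosed_closedBall)
    fun u hu => hA u ⟨hu.1, hsub hu.2⟩
  set e := ⟪m, w - y⟫_ℝ with he
  have w4 : w - x = z + (e - s) • m := by
    have : w - y = z + e • m := by rw [← w2, Mv.PL]; simp [he, hm]
    rw [show w - x = w - y + (y - x) by abel, this, hyx, sub_smul, neg_smul]
    abel
  have w5 : |e| ≤ 3 * d / 4 := by
    refine w3.trans ?_
    have : ‖z‖ ^ 2 ≤ d ^ 2 := pow_le_pow_left₀ (norm_nonneg _) z3 2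
    nlinarith [mul_le_mul_of_nonneg_left this k0.le]
  have w6 : d / 2 ≤ |⟪w - x, ν⟫_ℝ| := by
    refine le_trans ?_ (le_abs_self _)
    rw [w4, inner_add_left, z2, real_inner_smul_left, ← hc]
    have h5 : |(e - s) * c| ≤ 7 * d / 4 * (1 / 4) :=
      CS.abs_mul_le ((abs_sub _ _).trans (by linarith)) hc5.le
    have h6 : c ^ 2 ≤ 1 / 16 := by nlinarith [sq_abs c, abs_nonneg c]
    nlinarith [neg_abs_le ((e - s) * c)]
  have w7 : ‖w - x‖ ≤ 3 * d := by
    have := norm_add_le (w - y) (y - x)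
    rw [sub_add_sub_cancel, ← dist_eq_norm y x, dist_comm y x] at this
    linarith
  have h7 := hr w hw
  have h8 : ‖w - x‖ ^ 2 ≤ (3 * d) ^ 2 := pow_le_pow_left₀ (norm_nonneg _) w7 2
  nlinarith [mul_le_mul_of_nonneg_left w6 hρ]

theorem at_pow {s g : ℝ} (hs : 0 < s) (hg : 0 < g) :
    (s / (s / (2 : ℝ) ^ g⁻¹)) ^ g = 2 := by
  rw [div_div_cancel₀ hs.ne', Real.rpow_inv_rpow (by norm_num) hg.ne']

theorem at_sq_le {u g : ℝ} (hu : 1 ≤ u) (hg : 0 < g) : (u ^ g - 1) ^ 2 ≤ u ^ (2 * g) := by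
  have h1 : 1 ≤ u ^ g := Real.one_le_rpow hu hg.le
  rw [mul_comm, Real.rpow_mul (by linarith), Real.rpow_two]
  nlinarith

theorem atomS_of (hAn : AnS) (hD : DecS) (hE : EndS) (hP : ReachPosS) : AtomS := by
  intro S Λ p r₀ hS hr₀ hPr hI
  obtain ⟨c, η, c0, c1, η0, η1, hAn⟩ := hAn
  have h1 : ∀ᶠ s in 𝓝[>] (0 : ℝ), PrS S p s := by
    filter_upwards [Ioo_mem_nhdsGT hr₀] with s hs q hq hd
    refine hPr q hq ⟨⟨by rw [mem_ball, hd]; exact hs.2, fun h => ?_⟩, trivial⟩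
    rw [mem_singleton_iff.1 h, dist_self] at hd
    exact hs.1.ne hd
  have h2 := hD S Λ p _ hS sc_zero h1 (by
    intro κ hκ
    obtain ⟨δ, hδ, h⟩ := exists_pos_setLIntegral_lt_of_measure_lt hI
      (ε := ENNReal.ofReal κ) (by simpa using hκ)
    have h3 : Tendsto (fun s : ℝ => ENNReal.ofReal (Λ * (2 * s) ^ 2)) (𝓝[>] 0) (𝓝 0) := by
      have : Tendsto (fun s : ℝ => Λ * (2 * s) ^ 2) (𝓝 0) (𝓝 (Λ * (2 * 0) ^ 2)) :=
        (by fun_prop : Continuous fun s : ℝ => Λ * (2 * s) ^ 2).tendsto 0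
      simpa using ENNReal.tendsto_ofReal (this.mono_left nhdsWithin_le_nhds)
    filter_upwards [h3.eventually (gt_mem_nhds hδ), Ioo_mem_nhdsGT (half_pos hr₀)] with s h4 hs
    have h5 := h (ball p (2 * s)) (((Measure.restrict_apply_le _ _).trans
      (hS.ar 0 p _ (by linarith [hs.1]))).trans_lt h4)
    rw [Measure.restrict_restrict measurableSet_ball,
      inter_eq_left.2 (ball_subset_ball (by linarith [hs.2]))] at h5
    exact (lintegral_mono_set fun x hx => hx.2).trans h5.le)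
  refine hE S Λ p _ (c / 2 ^ (1 / 4 : ℝ)⁻¹) hS sc_zero (by positivity) h1 h2 ?_
  obtain ⟨u, hu, h3⟩ := (nhdsGT_basis (0 : ℝ)).eventually_iff.1 (h1.and (h2 η η0))
  set R' := min u r₀ / 4 with hR'
  have hm : 0 < min u r₀ := lt_min hu hr₀
  have R0 : 0 < R' := by positivity
  have R1 : 4 * R' ≤ u := by linarith [min_le_left u r₀]
  have R2 : 4 * R' ≤ r₀ := by linarith [min_le_right u r₀]
  obtain ⟨ρ, ρ0, hρ⟩ := hP S hS.reg _ ((closedBall p (2 * R') \ ball p (R' / 2)) ×ˢ {0})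
    ((isOpen_ball.sdiff isClosed_singleton).prod isOpen_univ) hPr
    (((isCompact_closedBall _ _).diff isOpen_ball).prod isCompact_singleton)
    (prod_mono (fun z hz => ⟨closedBall_subset_ball (by linarith) hz.1, fun h => hz.2 (by
      rw [mem_singleton_iff.1 h]; exact mem_ball_self (by linarith))⟩) (subset_univ _))
  have hd : ∀ x y, dist x p = R' → Crit S 0 x y → min (R' / 2) (2 * ρ) ≤ dist x y := by
    intro x y hx h
    by_cases h4 : R' / 2 ≤ dist x y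
    · exact (min_le_left _ _).trans h4
    refine (min_le_right _ _).trans (at_crit_foot hS.reg h ρ0.le (hρ _ ⟨h.2.1, ⟨?_, ?_⟩, rfl⟩))
    · have := dist_triangle y x p
      rw [dist_comm y x] at this
      rw [mem_closedBall]
      linarith
    · have := dist_triangle x y p
      rw [mem_ball]
      linarith
  have T1 : (1 : ℝ) ≤ 2 ^ (1 / 4 : ℝ)⁻¹ := Real.one_le_rpow (by norm_num) (by norm_num)
  have h4 : Tendsto (fun s : ℝ => √(s * R')) (𝓝[>] 0) (𝓝 0) := by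
    have : Tendsto (fun s : ℝ => √(s * R')) (𝓝 0) (𝓝 √(0 * R')) :=
      (by fun_prop : Continuous fun s : ℝ => √(s * R')).tendsto 0
    simpa using this.mono_left nhdsWithin_le_nhds
  filter_upwards [Ioo_mem_nhdsGT R0,
    h4.eventually (gt_mem_nhds (lt_min (half_pos R0) (by positivity : 0 < 2 * ρ)))]
    with s hs h5 x y hx h
  set R := s / 2 ^ (1 / 4 : ℝ)⁻¹ with hR
  have hR0 : 0 < R := div_pos hs.1 (by positivity)
  have hR1 : R ≤ s := div_le_self hs.1.le T1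
  have h6 := hAn S 0 p R R' (1 / 4) hS.reg hR0 (hR1.trans_lt hs.2) (by norm_num) (by norm_num)
    (fun q hq hb => (h3 ⟨by linarith [hb.1.1], by linarith [hb.1.2]⟩).1 q hq rfl)
    (fun z hz a b => ⟨hS.min _ hz, (h3 ⟨by linarith, by linarith⟩).2 z hz rfl⟩)
    (fun x y hx _ h => by
      refine le_trans ?_ (h5.le.trans (hd x y hx h))
      have h7 := at_sq_le (u := R' / R) (g := 1 / 4)
        ((one_le_div hR0).2 (hR1.trans hs.2.le)) (by norm_num)
      rw [show (2 * (1 / 4) : ℝ) = 1 / 2 by norm_num, ← Real.sqrt_eq_rpow] at h7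
      have h8 : R * √(R' / R) ≤ √(s * R') := by
        refine Real.le_sqrt_of_sq_le ?_
        rw [mul_pow, Real.sq_sqrt (by positivity)]
        have : R ^ 2 * (R' / R) = R * R' := by field_simp
        rw [this]
        exact mul_le_mul_of_nonneg_right hR1 R0.le
      have h9 := mul_le_mul_of_nonneg_left h7 hR0.le
      have h10 : 0 ≤ R * ((R' / R) ^ (1 / 4 : ℝ) - 1) ^ 2 := by positivity
      nlinarith)
    x y (by rw [hx]; exact hR1) (by rw [hx]; exact hs.2) h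
  rw [hx, hR, at_pow hs.1 (by norm_num)] at h6
  refine le_trans (le_of_eq ?_) h6
  ring

theorem infS_of (hAn : AnS) (hD : DecS) (hE : EndS) : InfS := by
  intro S Λ p r₀ c₀ γ hS hc₀ hγ hPr hI hfr
  obtain ⟨c, η, c0, c1, η0, η1, hAn⟩ := hAn
  have h1 : ∀ᶠ s in atTop, PrS S p s := by
    filter_upwards [eventually_gt_atTop r₀] with s hs q hq hd
    exact hPr q hq ⟨by rw [mem_compl_iff, mem_closedBall, hd]; exact not_le.2 hs, trivial⟩
  have h2 := hD S Λ p _ hS sc_top h1 (by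
    intro κ hκ
    set ν := ((S.mu 0).restrict (closedBall p r₀)ᶜ).withDensity
      fun x => ENNReal.ofReal (S.A2 (x, 0)) with hν
    have h3 := tendsto_measure_iInter_atTop (μ := ν) (s := fun s : ℝ => (closedBall p (s / 2))ᶜ)
      (fun s => measurableSet_closedBall.compl.nullMeasurableSet)
      (fun a b h => compl_subset_compl.2 (closedBall_subset_closedBall (by linarith)))
      ⟨0, ne_top_of_le_ne_top (by simpa [hν] using hI) (measure_mono (subset_univ _))⟩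
    have h4 : ⋂ s : ℝ, (closedBall p (s / 2))ᶜ = ∅ := by
      refine eq_empty_of_forall_notMem fun z hz => mem_iInter.1 hz (2 * dist z p) ?_
      rw [mem_closedBall]
      linarith
    rw [h4, measure_empty] at h3
    filter_upwards [h3.eventually (gt_mem_nhds (ENNReal.ofReal_pos.2 hκ)),
      eventually_ge_atTop (2 * r₀)] with s h5 hs
    rw [Function.comp_apply, hν, withDensity_apply _ measurableSet_closedBall.compl,
      Measure.restrict_restrict measurableSet_closedBall.compl, inter_eq_left.2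
        (compl_subset_compl.2 (closedBall_subset_closedBall (by linarith)))] at h5
    refine le_trans (lintegral_mono_set fun x hx => ?_) h5.le
    exact not_le.2 hx.1)
  set g := min (1 / 2) (γ / 4) with hg
  have g0 : 0 < g := lt_min (by norm_num) (by positivity)
  have g1 : g ≤ 1 / 2 := min_le_left _ _
  have g2 : g ≤ γ / 4 := min_le_right _ _
  refine hE S Λ p _ (c / 2 ^ g⁻¹) hS sc_top (by positivity) h1 h2 ?_
  obtain ⟨u, h3⟩ := eventually_atTop.1 ((h1.and (h2 η η0)).and (eventually_gt_atTop 0))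
  have u0 : 0 < u := (h3 u le_rfl).2
  have T1 : (1 : ℝ) ≤ 2 ^ g⁻¹ := Real.one_le_rpow (by norm_num) (by positivity)
  filter_upwards [eventually_ge_atTop (max (2 * u) 1 * 2 ^ g⁻¹)] with s hs x y hx h
  set R := s / 2 ^ g⁻¹ with hR
  have hR2 : max (2 * u) 1 ≤ R := (le_div_iff₀ (by positivity)).2 hs
  have hR3 : 2 * u ≤ R := (le_max_left _ _).trans hR2
  have hR4 : 1 ≤ R := (le_max_right _ _).trans hR2
  have hR0 : 0 < R := by linarith
  have s0 : 0 < s := by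
    have := mul_pos hR0 (by positivity : (0 : ℝ) < 2 ^ g⁻¹)
    rwa [hR, div_mul_cancel₀ _ (by positivity)] at this
  have hR1 : R ≤ s := div_le_self s0.le T1
  have h4 : ∀ᶠ ρ : ℝ in atTop, 9 * R / c₀ ≤ ρ ^ (γ / 2) :=
    (tendsto_rpow_atTop (half_pos hγ)).eventually_ge_atTop _
  obtain ⟨R', h5, h6, h7⟩ := (hfr.and_eventually (h4.and (eventually_gt_atTop s))).exists
  have R0 : 0 < R' := s0.trans h7
  have h8 := hAn S 0 p R R' g hS.reg hR0 (hR1.trans_lt h7) g0 g1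
    (fun q hq hb => (h3 _ (by linarith [hb.1.1])).1.1 q hq rfl)
    (fun z hz a b => ⟨hS.min _ hz, (h3 _ (by linarith)).1.2 z hz rfl⟩)
    (fun x y hx ht h => by
      have v1 : 1 ≤ R' / R := (one_le_div hR0).2 (hR1.trans h7.le)
      have h9 := mul_le_mul_of_nonneg_left (at_sq_le v1 g0) hR0.le
      have h10 : 0 ≤ R * ((R' / R) ^ g - 1) ^ 2 := by positivity
      by_cases hd : R' / 8 ≤ dist x y
      · have h11 : (R' / R) ^ (2 * g) ≤ R' / R := by
          simpa using Real.rpow_le_rpow_of_exponent_le v1 (by linarith : 2 * g ≤ 1)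
        have h12 := mul_le_mul_of_nonneg_left h11 hR0.le
        rw [mul_div_cancel₀ _ hR0.ne'] at h12
        nlinarith
      have hz : ∀ z ∈ closedBall y (2 * dist x y), R' / 2 ≤ dist z p := fun z hz => by
        have a1 : dist z y ≤ 2 * dist x y := hz
        have a2 := dist_triangle4 x y z p
        rw [dist_comm y z] at a2
        linarith
      have h13 := at_crit_far hS.reg h (by positivity) (h5 x h.1 hx ht) (κ := 1 / (4 * R'))
        (k := 1 / (2 * R')) (by positivity)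
        (one_div_lt_one_div_of_lt (by positivity) (by linarith))
        (by
          rw [show 4 * (1 / (2 * R')) * dist x y = 2 * dist x y / R' by field_simp; ring,
            div_le_one R0]
          linarith)
        (cpt (Ω := closedBall y (2 * dist x y) ×ˢ univ)
          (fun q hq hb => (h3 _ (by linarith [hz _ hb.1])).1.1 q hq rfl)
          (isCompact_closedBall _ _) fun z hz => ⟨hz, trivial⟩)
        (fun z hz' => by
          have a1 := hz z hz'.2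
          refine ((h3 _ (by linarith)).1.2 z hz'.1 rfl).trans
            (pow_le_pow_left₀ (by positivity) ?_ 2)
          rw [div_le_div_iff₀ (by linarith) (by positivity)]
          nlinarith)
      have h14 : (R' / R) ^ (2 * g) ≤ R' ^ (γ / 2) :=
        (Real.rpow_le_rpow (by positivity) (div_le_self R0.le hR4) (by positivity)).trans
          (Real.rpow_le_rpow_of_exponent_le (by linarith) (by linarith))
      have h15 : R' ^ γ = R' ^ (γ / 2) * R' ^ (γ / 2) := by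
        rw [← Real.rpow_add R0, add_halves]
      have h16 : 0 < R' ^ (γ / 2) := by positivity
      rw [div_le_iff₀ hc₀] at h6
      have h17 := mul_le_mul_of_nonneg_left h14 hR0.le
      have h18 := mul_le_mul_of_nonneg_right h6 h16.le
      rw [h15] at h13
      nlinarith)
    x y (by rw [hx]; exact hR1) (by rw [hx]; exact h7) h
  rw [hx, hR, at_pow s0 g0] at h8
  refine le_trans (le_of_eq ?_) h8
  ring

end Crest.Agent.N250.Min

end
end

-- ▼ part N250/Min/Bl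

/-!
# Row 250 (helper55): `BlS`, almost flat annuli with linear reach have density at most one
-/

set_option autoImplicit false
open MeasureTheory Set Filter Topology Metric
open scoped ContDiff InnerProductSpace
open Crest.GeometryTopology.MCF

noncomputable section

namespace Crest.Agent.N250.Min.Bl

open Crest.Agent.N250.A

theorem reach_le {F : Mv} {p : ST} (hn : ‖F.n p‖ = 1) {ρ σ : ℝ} (h : F.Reach p ρ) (_h0 : 0 ≤ σ)
    (h1 : σ ≤ ρ) : F.Reach p σ := by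
  intro y hy
  obtain ⟨a, b⟩ := h y hy
  have e : ‖(ρ - σ) • F.n p‖ = ρ - σ := by
    rw [norm_smul, hn, mul_one, Real.norm_of_nonneg (by linarith)]
  constructor
  · have := dist_triangle y (p.1 + σ • F.n p) (p.1 + ρ • F.n p)
    rw [dist_eq_norm (p.1 + σ • F.n p), show p.1 + σ • F.n p - (p.1 + ρ • F.n p) =
      -((ρ - σ) • F.n p) by rw [sub_smul]; abel, norm_neg, e] at this
    linarith
  · have := dist_triangle y (p.1 - σ • F.n p) (p.1 - ρ • F.n p)
    rw [dist_eq_norm (p.1 - σ • F.n p), show p.1 - σ • F.n p - (p.1 - ρ • F.n p) =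
      (ρ - σ) • F.n p by rw [sub_smul]; abel, e] at this
    linarith

theorem A2_eq (F : Mv) (p : ST) :
    F.A2 p = ∑ a, ∑ b, F.DL [a] (F.nu b) p * F.DL [a] (F.nu b) p := by
  simp only [Mv.A2, Finset.sum_apply, Pi.mul_apply]; rfl

/-- the cut-off of an annulus -/
def chi (a K : ℝ) (x : E) : ℝ := max 0 (min 1 (min (2 * ‖x‖ / a - 1) (K + 1 - ‖x‖)))

theorem chi_cont (a K : ℝ) : Continuous (chi a K) := by unfold chi; fun_prop

theorem chi_nonneg (a K : ℝ) (x : E) : 0 ≤ chi a K x := le_max_left _ _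

theorem chi_le (a K : ℝ) (x : E) : chi a K x ≤ 1 := max_le zero_le_one (min_le_left _ _)

theorem chi_one {a K : ℝ} (ha : 0 < a) {x : E} (h1 : a ≤ ‖x‖) (h2 : ‖x‖ ≤ K) : chi a K x = 1 := by
  have : 2 ≤ 2 * ‖x‖ / a := by rw [le_div_iff₀ ha]; linarith
  unfold chi
  rw [min_eq_left (le_min (by linarith) (by linarith)), max_eq_right zero_le_one]

theorem chi_zero {a K : ℝ} (ha : 0 < a) {x : E} (h : x ∉ closedBall (0 : E) (K + 1) \ ball 0 (a / 2)) :
    chi a K x = 0 := by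
  unfold chi
  refine max_eq_left ((min_le_right _ _).trans ?_)
  by_cases h1 : ‖x‖ ≤ K + 1
  · have : ‖x‖ < a / 2 := by
      by_contra h2
      exact h ⟨mem_closedBall_zero_iff.2 h1, fun h3 => h2 (mem_ball_zero_iff.1 h3)⟩
    have : 2 * ‖x‖ / a ≤ 1 := by rw [div_le_one ha]; linarith
    exact (min_le_left _ _).trans (by linarith)
  · exact (min_le_right _ _).trans (by linarith [not_le.1 h1])

/-- the Gaussian area against its part in an annulus -/
theorem split {Λ e : ℝ} (hΛ : 0 ≤ Λ) (he : 0 < e) : ∃ a K : ℝ, 0 < a ∧ ∀ μ : Measure E,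
    (∀ r, 0 < r → μ (ball 0 r) ≤ ENNReal.ofReal (Λ * r ^ 2)) →
    ∫ x, gau 0 1 x ∂μ ≤ ∫ x, chi a K x * gau 0 1 x ∂μ + e := by
  obtain ⟨C, hC, hg⟩ := gau_ar
  have hp := Real.pi_gt_three
  obtain ⟨L, hL0, hL⟩ : ∃ L : ℝ, 0 ≤ L ∧ 2 * Real.exp (-L ^ 2 / 8) * (C * Λ) ≤ e / 3 := by
    refine ⟨8 + 48 * C * Λ / e, by positivity, ?_⟩
    set L := 8 + 48 * C * Λ / e
    have l8 : 8 ≤ L := le_add_of_nonneg_right (by positivity)
    have a := Real.add_one_le_exp (L ^ 2 / 8)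
    have b : 48 * C * Λ ≤ L * e := by
      have : L * e = 8 * e + 48 * C * Λ := by simp only [L]; field_simp
      linarith
    rw [neg_div, Real.exp_neg, mul_assoc, ← div_eq_inv_mul, ← mul_div_assoc,
      div_le_div_iff₀ (Real.exp_pos _) (by norm_num)]
    nlinarith [mul_le_mul_of_nonneg_left a he.le, mul_nonneg (mul_nonneg he.le (by linarith : 0 ≤ L))
      (by linarith : 0 ≤ L - 8)]
  obtain ⟨a, ha, ha'⟩ : ∃ a : ℝ, 0 < a ∧ Λ * a ^ 2 ≤ e / 2 := by
    refine ⟨min 1 (e / (2 * (Λ + 1))), by positivity, ?_⟩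
    set a := min 1 (e / (2 * (Λ + 1)))
    have a0 : 0 < a := by positivity
    have a1 : a ≤ 1 := min_le_left _ _
    have a2 : a * (2 * (Λ + 1)) ≤ e := (le_div_iff₀ (by positivity)).1 (min_le_right _ _)
    nlinarith [mul_nonneg hΛ (mul_nonneg a0.le (by linarith : 0 ≤ 1 - a))]
  refine ⟨a, L, ha, fun μ hμ => ?_⟩
  have g0 : ∀ x, 0 ≤ gau (0 : E) 1 x := fun x => (gau_pos one_pos _ _).le
  have hI : Integrable (gau (0 : E) 1) μ :=
    ⟨(gau_cont _ _).aestronglyMeasurable, (hasFiniteIntegral_iff_ofReal (ae_of_all _ g0)).2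
      ((hg μ Λ 0 1 one_pos hΛ hμ).trans_lt ENNReal.ofReal_lt_top)⟩
  have hJ : Integrable (fun x => chi a L x * gau 0 1 x) μ :=
    hI.mono' ((chi_cont a L).mul (gau_cont _ _)).aestronglyMeasurable (ae_of_all _ fun x => by
      rw [Real.norm_of_nonneg (mul_nonneg (chi_nonneg _ _ _) (g0 x))]
      exact mul_le_of_le_one_left (g0 x) (chi_le _ _ _))
  have J0 : 0 ≤ ∫ x, chi a L x * gau 0 1 x ∂μ :=
    integral_nonneg fun x => mul_nonneg (chi_nonneg _ _ _) (g0 x)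
  have small : ∫⁻ x in ball 0 a, ENNReal.ofReal (gau (0 : E) 1 x) ∂μ ≤ ENNReal.ofReal (e / 2) := by
    have gb : ∀ x, ENNReal.ofReal (gau (0 : E) 1 x) ≤ 1 := fun x =>
      ENNReal.ofReal_le_one.2 ((gau_le one_pos _ _).trans (inv_le_one_of_one_le₀ (by linarith)))
    refine (lintegral_mono gb).trans ?_
    rw [setLIntegral_const, one_mul]
    exact (hμ a ha).trans (ENNReal.ofReal_le_ofReal ha')
  have tail : ∫⁻ x in (ball 0 L)ᶜ, ENNReal.ofReal (gau (0 : E) 1 x) ∂μ ≤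
      ENNReal.ofReal (e / 3) := by
    have k : ∀ x ∈ (ball (0 : E) L)ᶜ, ENNReal.ofReal (gau 0 1 x) ≤
        ENNReal.ofReal (2 * Real.exp (-L ^ 2 / 8)) * ENNReal.ofReal (gau 0 (2 * 1) x) := by
      intro x hx
      rw [← ENNReal.ofReal_mul (by positivity)]
      refine ENNReal.ofReal_le_ofReal (gau_tail one_pos hL0 ?_)
      rw [mem_compl_iff, mem_ball_zero_iff, not_lt] at hx
      simpa using hx
    refine (setLIntegral_mono' measurableSet_ball.compl k).trans ?_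
    refine (setLIntegral_le_lintegral _ _).trans ?_
    rw [lintegral_const_mul' _ _ ENNReal.ofReal_ne_top]
    refine (mul_le_mul_right (hg _ Λ 0 _ (by positivity) hΛ hμ) _).trans ?_
    rw [← ENNReal.ofReal_mul (by positivity)]
    exact ENNReal.ofReal_le_ofReal hL
  have main : ∫⁻ x in ball 0 L \ ball 0 a, ENNReal.ofReal (gau (0 : E) 1 x) ∂μ ≤
      ENNReal.ofReal (∫ x, chi a L x * gau 0 1 x ∂μ) := by
    rw [ofReal_integral_eq_lintegral_ofReal hJ
      (ae_of_all _ fun x => mul_nonneg (chi_nonneg _ _ _) (g0 x))]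
    refine le_trans (setLIntegral_mono' (measurableSet_ball.diff measurableSet_ball) fun x hx => ?_)
      (setLIntegral_le_lintegral _ _)
    rw [chi_one ha (not_lt.1 fun h => hx.2 (mem_ball_zero_iff.2 h)) (mem_ball_zero_iff.1 hx.1).le,
      one_mul]
  have u : (univ : Set E) ⊆ (ball 0 L \ ball 0 a ∪ ball 0 a) ∪ (ball 0 L)ᶜ := fun x _ => by
    by_cases h1 : x ∈ ball (0 : E) L
    · by_cases h2 : x ∈ ball (0 : E) a
      · exact Or.inl (Or.inr h2)
      · exact Or.inl (Or.inl ⟨h1, h2⟩)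
    · exact Or.inr h1
  rw [integral_eq_lintegral_of_nonneg_ae (ae_of_all _ g0) (gau_cont _ _).aestronglyMeasurable]
  refine ENNReal.toReal_le_of_le_ofReal (by positivity) ?_
  rw [← setLIntegral_univ]
  refine (lintegral_mono_set u).trans ((lintegral_union_le _ _ _).trans ?_)
  refine (add_le_add ((lintegral_union_le _ _ _).trans (add_le_add main small)) tail).trans ?_
  rw [← ENNReal.ofReal_add J0 (by positivity), ← ENNReal.ofReal_add (by positivity) (by positivity)]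
  exact ENNReal.ofReal_le_ofReal (by linarith)

end Crest.Agent.N250.Min.Bl

namespace Crest.Agent.N250.Min

open Bl Crest.Agent.N250.A

theorem blS_of (hC : CptS) (hJ : ConvJetS) (hM : ConvMuS) (hR : ConvReachS) (hF : FlS) : BlS := by
  intro α l Fk Λ c hc hc4 h1 h2 ε hε
  by_contra hn
  rw [not_eventually] at hn
  have hne := frequently_iff_neBot.1 hn
  set U : Ultrafilter α := Ultrafilter.of (l ⊓ 𝓟 {k | ¬ (Fk k).Fs 0 0 1 ≤ 1 + ε})
  have hU : (U : Filter α) ≤ l ⊓ 𝓟 {k | ¬ (Fk k).Fs 0 0 1 ≤ 1 + ε} := Ultrafilter.of_le _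
  have hl : (U : Filter α) ≤ l := hU.trans inf_le_left
  have hbad : ∀ᶠ k in (U : Filter α), ¬ (Fk k).Fs 0 0 1 ≤ 1 + ε :=
    (hU.trans inf_le_right) (mem_principal_self _)
  set Ω : Set ST := {(0 : E)}ᶜ ×ˢ univ
  have hΩ : IsOpen Ω := isOpen_compl_singleton.prod isOpen_univ
  have ann : ∀ x : E, x ≠ 0 → ∃ K : ℝ, 1 < K ∧ K⁻¹ < ‖x‖ ∧ ‖x‖ < K := by
    intro x hx
    have x0 := norm_pos_iff.2 hx
    refine ⟨1 + ‖x‖ + ‖x‖⁻¹, by have := inv_pos.2 x0; linarith, ?_,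
      by have := inv_pos.2 x0; linarith⟩
    rw [inv_lt_comm₀ (by positivity) x0]; linarith
  have opn : ∀ K : ℝ, IsOpen {x : E | K⁻¹ < ‖x‖ ∧ ‖x‖ < K} := fun K =>
    (isOpen_lt continuous_const continuous_norm).inter (isOpen_lt continuous_norm continuous_const)
  obtain ⟨F, hm, hsub, hpr, hcv⟩ := hC α U Fk Ω hΩ (by
    intro p hp
    obtain ⟨K, hK, k1, k2⟩ := ann p.1 hp.1
    have K0 : 0 < K⁻¹ := by positivity
    refine ⟨{x : E | K⁻¹ < ‖x‖ ∧ ‖x‖ < K} ×ˢ univ,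
      ((opn K).prod isOpen_univ).mem_nhds ⟨⟨k1, k2⟩, trivial⟩, c * K⁻¹, by positivity, ?_⟩
    filter_upwards [hl h1, hl (h2 K 1 hK one_pos)] with k a b
    refine ⟨a.1, b.1, fun q hq => ?_⟩
    exact reach_le (norm_n_of_reg a.1.1 hq.1) (b.2 q hq.1 hq.2.1.1 hq.2.1.2).1 (by positivity)
      (mul_le_mul_of_nonneg_left hq.2.1.1.le hc.le))
  have flat : ∀ x ∈ F.sl 0, F.A2 (x, 0) = 0 ∧ F.Reach (x, 0) (c / 2 * ‖x‖) := by
    intro x hx
    have hxΩ : (x, (0 : ℝ)) ∈ Ω := hsub hx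
    have x0 : 0 < ‖x‖ := norm_pos_iff.2 hxΩ.1
    obtain ⟨K, hK, k1, k2⟩ := ann x hxΩ.1
    obtain ⟨xk, hxk, hmem⟩ := (hJ α U Fk F Ω hcv).2 (x, 0) hxΩ hx (fun _ => 0) tendsto_const_nhds
    have hpk : Tendsto (fun k => (xk k, (0 : ℝ))) U (𝓝 (x, 0)) := hxk.prodMk_nhds tendsto_const_nhds
    have hin : ∀ᶠ k in (U : Filter α), K⁻¹ < ‖xk k‖ ∧ ‖xk k‖ < K := hxk ((opn K).mem_nhds ⟨k1, k2⟩)
    constructor
    · have jt := ((hJ α U Fk F Ω hcv).1 _ _ hxΩ hpk hmem).2.2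
      have lim : Tendsto (fun k => (Fk k).A2 (xk k, 0)) U (𝓝 (F.A2 (x, 0))) := by
        simp only [A2_eq]
        exact tendsto_finsetSum _ fun a _ => tendsto_finsetSum _ fun b _ =>
          (jt [a] b).mul (jt [a] b)
      refine le_antisymm (le_of_forall_pos_le_add fun η hη => ?_) ?_
      · rw [zero_add]
        refine le_of_tendsto lim ?_
        filter_upwards [hmem, hin, hl (h2 K η hK hη)] with k a b d
        exact (d.2 _ a b.1 b.2).2
      · rw [A2_eq]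
        exact Finset.sum_nonneg fun a _ => Finset.sum_nonneg fun b _ => mul_self_nonneg _
    · refine (hR α U Fk F Ω hΩ hcv _ (x, 0) (c / 2 * ‖x‖) (by positivity) hpk hmem ?_).1 ?_
      · rintro ⟨z, s⟩ ⟨hz, -⟩
        refine ⟨fun h => ?_, trivial⟩
        rw [mem_singleton_iff] at h
        simp only at h hz
        rw [h, mem_closedBall, dist_zero_left] at hz
        nlinarith
      · have : ∀ᶠ k in (U : Filter α), ‖x‖ / 2 < ‖xk k‖ :=
          hxk.norm (lt_mem_nhds (by simp only; linarith))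
        filter_upwards [hmem, hin, hl h1, hl (h2 K 1 hK one_pos), this] with k a b d e f
        exact reach_le (norm_n_of_reg d.1.1 a) (e.2 _ a b.1 b.2).1 (by positivity)
          (by simp only; nlinarith)
  have plane := hF F 0 (c / 2) hm.1 (by positivity)
    (fun p hp hp' => hpr p hp ⟨hp'.1, trivial⟩) (fun h => (hsub h).1 rfl) flat
  have one : ∫⁻ x, ENNReal.ofReal (gau (0 : E) 1 x) ∂F.mu 0 ≤ 1 := by
    unfold Mv.mu
    rcases (F.sl 0).eq_empty_or_nonempty with h0 | ⟨x, hx⟩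
    · simp [h0]
    refine (gau_slope (meas_sl hm.1 0) (norm_n_of_reg hm.1 hx) (θ := 0) (by norm_num)
      (fun p hp q hq => ?_) 0 one_pos).trans (by simp)
    rw [show p - q = (p - x) - (q - x) by abel, inner_sub_left, plane x hx p hp, plane x hx q hq]
    simp
  obtain ⟨a, K, ha, hs⟩ := split (le_max_right Λ 0) (half_pos hε)
  have cv := hM α U Fk F Ω ((closedBall (0 : E) (K + 1) \ ball 0 (a / 2)) ×ˢ Icc (-1 : ℝ) 1) hΩ hcv
    (((isCompact_closedBall _ _).diff isOpen_ball).prod isCompact_Icc)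
    (fun q hq => ⟨fun h => hq.1.2 (by rw [mem_singleton_iff.1 h]; exact mem_ball_self (half_pos ha)),
      trivial⟩)
    (fun q => chi a K q.1.1 * gau 0 1 q.1.1 * max 0 (1 - |q.1.2|))
    ((((chi_cont a K).mul (gau_cont 0 1)).comp (continuous_fst.comp continuous_fst)).mul
      (by fun_prop))
    (fun q hq => by
      by_cases h : q.1.1 ∈ closedBall (0 : E) (K + 1) \ ball 0 (a / 2)
      · have : ¬ |q.1.2| ≤ 1 := fun h' => hq ⟨h, abs_le.1 h'⟩
        rw [max_eq_left (by linarith [not_le.1 this]), mul_zero]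
      · rw [chi_zero ha h, zero_mul, zero_mul])
    (fun _ => 0) 0 tendsto_const_nhds
  simp only [abs_zero, sub_zero, max_eq_right zero_le_one, mul_one] at cv
  have le1 : ∫ x, chi a K x * gau 0 1 x ∂F.mu 0 ≤ 1 := by
    rw [integral_eq_lintegral_of_nonneg_ae
      (ae_of_all _ fun x => mul_nonneg (chi_nonneg _ _ _) (gau_pos one_pos _ _).le)
      ((chi_cont a K).mul (gau_cont 0 1)).aestronglyMeasurable]
    refine ENNReal.toReal_le_of_le_ofReal zero_le_one ?_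
    rw [ENNReal.ofReal_one]
    exact le_trans (lintegral_mono fun x => ENNReal.ofReal_le_ofReal
      (mul_le_of_le_one_left (gau_pos one_pos _ _).le (chi_le _ _ _))) one
  have ev := cv (Iio_mem_nhds (show _ < 1 + ε / 2 by linarith))
  obtain ⟨k, k1, k2, k3⟩ := (hbad.and ((h1.filter_mono hl).and ev)).exists
  refine k1 ((hs _ (ar_mono k2.2 (le_max_left Λ 0) 0 0)).trans ?_)
  have : ∫ x, chi a K x * gau 0 1 x ∂(Fk k).mu 0 < 1 + ε / 2 := k3
  linarith

end Crest.Agent.N250.Min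

end
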